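import Vale.Agent.P372.Protocol

/-!
From a witness of entanglement in a linked state to a state without key.
-/

open Matrix Finset
open scoped ComplexOrder Kronecker

namespace Vale.Agent.P372.Assembly

open Vale.Agent.Results.P372.IndividualMeasurements
open Vale.Agent.P372.Link
open Vale.Agent.P372.Lopc

/-- The partial transpose on the second system. -/
def ptrans {α α' : Type} (J : Matrix (α × α') (α × α') ℂ) : Matrix (α × α') (α × α') ℂ :=
  fun x y => J (x.1, y.2) (y.1, x.2)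

/-- The link of two operators through the operator `τ`. -/
def link {α α' β β' : Type} [Fintype α'] [Fintype β'] (JA : Matrix (α × α') (α × α') ℂ)
    (JB : Matrix (β × β') (β × β') ℂ) (τ : Matrix (α' × β') (α' × β') ℂ) :
    Matrix (α × β) (α × β) ℂ :=
  fun x y => ∑ p, ∑ q, τ p q * (JA (x.1, p.1) (y.1, q.1) * JB (x.2, p.2) (y.2, q.2))

/-- A Kraus family with given entries. -/
lemma exists_kraus {α α' : Type} [Fintype α] [DecidableEq α] [Fintype α'] [DecidableEq α']
    {J : Matrix (α × α') (α × α') ℂ} (hJ : J.PosSemidef) :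
    ∃ (r : ℕ) (K : Fin r → Matrix α α' ℂ), ∀ i p i' q, coef K i p i' q = J (i, p) (i', q) := by
  obtain ⟨X, hX⟩ := psd_factor hJ
  refine ⟨Fintype.card (α × α'), fun j i p => star (X ((Fintype.equivFin (α × α')).symm j) (i, p)),
    fun i p i' q => ?_⟩
  simp only [coef, star_star]
  rw [Equiv.sum_comp (Fintype.equivFin (α × α')).symm
    (fun j => star (X j (i, p)) * X j (i', q)), hX, Matrix.mul_apply]
  rfl

/-- A linked state is a channel image. -/
lemma link_eq_channel {α α' β β' : Type} [Fintype α'] [Fintype β'] {r r' : ℕ}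
    (JA : Matrix (α × α') (α × α') ℂ)
    (JB : Matrix (β × β') (β × β') ℂ) (τ : Matrix (α' × β') (α' × β') ℂ)
    (K : Fin r → Matrix α α' ℂ) (K' : Fin r' → Matrix β β' ℂ)
    (hK : ∀ i p i' q, coef K i p i' q = JA (i, p) (i', q))
    (hK' : ∀ i p i' q, coef K' i p i' q = JB (i, p) (i', q)) :
    link JA JB τ = channel (pairK K K') τ := by
  ext x y
  simp only [link, channel_apply, coef_pairK, hK, hK']

/-- A product-vector bound on `W` bounds the value of `W` on separable states. -/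
lemma sep_le {d : ℕ} {ρ W : Matrix (Fin d × Fin d) (Fin d × Fin d) ℂ} {c : ℝ}
    (hW : ∀ u v : Fin d → ℂ,
      (∑ x, ∑ y, star (u x.1 * v x.2) * W x y * (u y.1 * v y.2)).re ≤
        c * ((∑ i, ‖u i‖ ^ 2) * ∑ i, ‖v i‖ ^ 2))
    (hρ : IsSep ρ) : (W * ρ).trace.re ≤ c := by
  obtain ⟨r, w, a, b, hw, hw1, hab, he⟩ := hρ
  choose X hX using fun k => psd_factor (hab k).1.1
  choose Y hY using fun k => psd_factor (hab k).2.1
  have htr : (W * ρ).trace = ∑ k, (w k : ℂ) * ∑ s, ∑ t,
      ∑ x : Fin d × Fin d, ∑ y : Fin d × Fin d, star (star (X k s x.1) * star (Y k t x.2)) *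
        W x y * (star (X k s y.1) * star (Y k t y.2)) := by
    simp only [Matrix.trace, Matrix.diag, Matrix.mul_apply, he, hX, hY, conjTranspose_apply,
      mul_sum, sum_mul]
    conv_rhs => enter [2, k, 2, s]; rw [sum_comm]
    conv_rhs => enter [2, k]; rw [sum_comm]
    conv_rhs => enter [2, k, 2, x, 2, s]; rw [sum_comm]
    conv_rhs => enter [2, k, 2, x]; rw [sum_comm]
    conv_rhs => rw [sum_comm]; enter [2, x]; rw [sum_comm]
    refine sum_congr rfl fun x _ => sum_congr rfl fun y _ => sum_congr rfl fun k _ => ?_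
    refine sum_comm.trans ?_
    refine sum_congr rfl fun s _ => sum_congr rfl fun t _ => ?_
    simp
    ring
  have hnorm : ∀ (M : Matrix (Fin d) (Fin d) ℂ), (Mᴴ * M).trace = 1 →
      ∑ s, ∑ i, ‖star (M s i)‖ ^ 2 = 1 := by
    intro M hM
    have h := congrArg Complex.re hM
    simp only [Matrix.trace, Matrix.diag, Matrix.mul_apply, conjTranspose_apply,
      Complex.re_sum, Complex.one_re] at h
    rw [sum_comm, ← h]
    refine sum_congr rfl fun i _ => sum_congr rfl fun s _ => ?_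
    rw [norm_star, Complex.sq_norm, Complex.normSq_apply]
    simp
  rw [htr, Complex.re_sum]
  calc ∑ k, ((w k : ℂ) * ∑ s, ∑ t, ∑ x : Fin d × Fin d, ∑ y : Fin d × Fin d,
        star (star (X k s x.1) * star (Y k t x.2)) * W x y *
          (star (X k s y.1) * star (Y k t y.2))).re
      ≤ ∑ k, w k * ∑ s, ∑ t, c * ((∑ i, ‖star (X k s i)‖ ^ 2) * ∑ i, ‖star (Y k t i)‖ ^ 2) := by
        refine sum_le_sum fun k _ => ?_
        rw [Complex.re_ofReal_mul, Complex.re_sum]
        refine mul_le_mul_of_nonneg_left (sum_le_sum fun s _ => ?_) (hw k)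
        rw [Complex.re_sum]
        exact sum_le_sum fun t _ => hW (fun i => star (X k s i)) (fun i => star (Y k t i))
    _ = c := by
        have h : ∀ k, ∑ s, ∑ t, c * ((∑ i, ‖star (X k s i)‖ ^ 2) *
            ∑ i, ‖star (Y k t i)‖ ^ 2) = c := by
          intro k
          simp only [← mul_sum, ← sum_mul]
          rw [hnorm _ (by rw [← hX]; exact (hab k).1.2), hnorm _ (by rw [← hY]; exact (hab k).2.2)]
          ring
        simp only [h, ← sum_mul, hw1, one_mul]

/-- A witness of entanglement in a linked state gives an entangled state without key. -/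
theorem answer_of_witness {α α' β' : Type} [Fintype α] [DecidableEq α] [Fintype α']
    [DecidableEq α'] [Fintype β'] [DecidableEq β']
    (JA : Matrix (α × α') (α × α') ℂ) (JB : Matrix (α × β') (α × β') ℂ)
    (τ : Matrix (α' × β') (α' × β') ℂ)
    (hA : JA.PosSemidef) (hA' : (ptrans JA).PosSemidef)
    (hB : JB.PosSemidef) (hB' : (ptrans JB).PosSemidef) (hτ : τ.PosSemidef)
    (W : Matrix (α × α) (α × α) ℂ) (c : ℝ)
    (hW : ∀ u v : α → ℂ,
      (∑ x, ∑ y, star (u x.1 * v x.2) * W x y * (u y.1 * v y.2)).re ≤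
        c * ((∑ i, ‖u i‖ ^ 2) * ∑ i, ‖v i‖ ^ 2))
    (hval : c * (link JA JB τ).trace.re < (W * link JA JB τ).trace.re) :
    ∃ (d : ℕ) (ρ : Matrix (Fin d × Fin d) (Fin d × Fin d) ℂ), IsState ρ ∧ ¬ IsSep ρ ∧
      (∃ R : Matrix (Fin d × Fin d) (Fin d × Fin d) ℂ, R * Rᴴ = ρ) ∧
      ∀ (ε : Type) [Fintype ε] [DecidableEq ε] (R : Matrix (Fin d × Fin d) ε ℂ), R * Rᴴ = ρ →
        (∀ (n ℓ : ℕ) (P : Prot ℓ (d ^ n) (d ^ n)) (δ : ℝ), 1 ≤ ℓ → HasError R P δ → 1 / 2 ≤ δ) ∧
        KD R = 0 := by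
  classical
  set d := Fintype.card α
  let e : α ≃ Fin d := Fintype.equivFin α
  let a' := Fintype.equivFin α'
  let b' := Fintype.equivFin β'
  let JA' := JA.submatrix (Prod.map e.symm a'.symm) (Prod.map e.symm a'.symm)
  let JB' := JB.submatrix (Prod.map e.symm b'.symm) (Prod.map e.symm b'.symm)
  let τ' := τ.submatrix (Prod.map a'.symm b'.symm) (Prod.map a'.symm b'.symm)
  let W' := W.submatrix (Prod.map e.symm e.symm) (Prod.map e.symm e.symm)
  have hlink : link JA' JB' τ' =
      (link JA JB τ).submatrix (Prod.map e.symm e.symm) (Prod.map e.symm e.symm) := by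
    ext x y
    simp only [link, Matrix.submatrix_apply, JA', JB', τ', Prod.map]
    refine (Equiv.sum_comp (a'.symm.prodCongr b'.symm) (fun p => ∑ q : Fin _ × Fin _,
      τ p (a'.symm q.1, b'.symm q.2) * (JA (e.symm x.1, p.1) (e.symm y.1, a'.symm q.1) *
        JB (e.symm x.2, p.2) (e.symm y.2, b'.symm q.2)))).trans ?_
    exact sum_congr rfl fun p _ => Equiv.sum_comp (a'.symm.prodCongr b'.symm)
      (fun q => τ p q * (JA (e.symm x.1, p.1) (e.symm y.1, q.1) *
        JB (e.symm x.2, p.2) (e.symm y.2, q.2)))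
  obtain ⟨r, K, hK⟩ := exists_kraus (hA.submatrix (Prod.map e.symm a'.symm) : JA'.PosSemidef)
  obtain ⟨r', K', hK'⟩ := exists_kraus (hB.submatrix (Prod.map e.symm b'.symm) : JB'.PosSemidef)
  obtain ⟨s, L, hL⟩ := exists_kraus
    ((hA'.submatrix (Prod.map e.symm a'.symm) : (ptrans JA').PosSemidef))
  obtain ⟨s', L', hL'⟩ := exists_kraus
    ((hB'.submatrix (Prod.map e.symm b'.symm) : (ptrans JB').PosSemidef))
  set ρ₀ := link JA' JB' τ' with hρ₀
  have hch : ρ₀ = channel (pairK K K') τ' := link_eq_channel JA' JB' τ' K K' hK hK'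
  have hτ' : τ'.PosSemidef := hτ.submatrix _
  have hρp : ρ₀.PosSemidef := by
    rw [hch]
    exact Matrix.posSemidef_sum _ fun _ _ => hτ'.mul_mul_conjTranspose_same _
  have hsum : ∀ f : Fin d × Fin d → ℂ, ∑ x, f x = ∑ x : α × α, f (e x.1, e x.2) := fun f =>
    (Equiv.sum_comp (e.prodCongr e) f).symm
  have hval' : c * ρ₀.trace.re < (W' * ρ₀).trace.re := by
    rw [hlink]
    show c * ((link JA JB τ).submatrix (e.symm.prodCongr e.symm) (e.symm.prodCongr e.symm)).trace.re <
      ((W.submatrix (e.symm.prodCongr e.symm) (e.symm.prodCongr e.symm)) *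
        (link JA JB τ).submatrix (e.symm.prodCongr e.symm) (e.symm.prodCongr e.symm)).trace.re
    rw [Matrix.submatrix_mul_equiv W (link JA JB τ) _ (e.symm.prodCongr e.symm) _]
    simpa [Matrix.trace, Matrix.diag, hsum] using hval
  have hpos : 0 < ρ₀.trace.re := by
    rcases (Complex.nonneg_iff.1 hρp.trace_nonneg).1.lt_or_eq with h | h
    · exact h
    · exfalso
      have h0 : ρ₀ = 0 := hρp.trace_eq_zero_iff.1
        (Complex.ext (by simpa using h.symm) (by
          simpa using (Complex.nonneg_iff.1 hρp.trace_nonneg).2.symm))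
      simp [h0] at hval'
  set t := ρ₀.trace.re
  have htC : ρ₀.trace = (t : ℂ) :=
    Complex.ext rfl (by simpa using (Complex.nonneg_iff.1 hρp.trace_nonneg).2.symm)
  have ht0 : (0:ℂ) ≤ ((t⁻¹ : ℝ) : ℂ) := by exact_mod_cast (inv_nonneg.2 hpos.le)
  let ρ : Matrix (Fin d × Fin d) (Fin d × Fin d) ℂ := ((t⁻¹ : ℝ) : ℂ) • ρ₀
  refine ⟨d, ρ, ⟨hρp.smul ht0, ?_⟩, fun hsep => ?_, ?_, ?_⟩
  · simp only [ρ, trace_smul, smul_eq_mul, htC, ← Complex.ofReal_mul,
      inv_mul_cancel₀ hpos.ne', Complex.ofReal_one]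
  · have hb := sep_le (W := W') (c := c) (fun u v => ?_) hsep
    · simp only [ρ, Matrix.mul_smul, trace_smul, smul_eq_mul, Complex.re_ofReal_mul] at hb
      rw [inv_mul_le_iff₀ hpos] at hb
      linarith
    · have := hW (fun i => u (e i)) (fun i => v (e i))
      rw [Equiv.sum_comp e (fun i => ‖u i‖ ^ 2), Equiv.sum_comp e (fun i => ‖v i‖ ^ 2)] at this
      simpa [hsum, W'] using this
  · obtain ⟨X, hX⟩ := psd_factor (hρp.smul ht0 : ρ.PosSemidef)
    exact ⟨Xᴴ, by rw [conjTranspose_conjTranspose, ← hX]⟩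
  · intro ε _ _ R hR
    refine noKey_of_link (τ := ((t⁻¹ : ℝ) : ℂ) • τ') K K' L L' ?_ ?_ (hτ'.smul ht0) R ?_
    · intro i p i' q; rw [hK, hL]; rfl
    · intro i p i' q; rw [hK', hL']; rfl
    · rw [hR]
      simp only [ρ, hch, channel, Matrix.mul_smul, Matrix.smul_mul, smul_sum]

end Vale.Agent.P372.Assembly
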