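import Mathlib

/-!
States, separable states, tensor powers, products of operators and the trace norm.
-/

open Matrix Finset
open scoped ComplexOrder

namespace Vale.Agent.Results.P372.IndividualMeasurements

/-- A density matrix on a finite dimensional system. -/
def IsState {ι : Type} [Fintype ι] (ρ : Matrix ι ι ℂ) : Prop :=
  ρ.PosSemidef ∧ ρ.trace = 1

/-- Separable: a finite convex combination of product states. -/
def IsSep {d : ℕ} (ρ : Matrix (Fin d × Fin d) (Fin d × Fin d) ℂ) : Prop :=
  ∃ (r : ℕ) (w : Fin r → ℝ) (α β : Fin r → Matrix (Fin d) (Fin d) ℂ),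
    (∀ k, 0 ≤ w k) ∧ (∑ k, w k = 1) ∧ (∀ k, IsState (α k) ∧ IsState (β k)) ∧
    ∀ x y, ρ x y = ∑ k, (w k : ℂ) * (α k x.1 y.1 * β k x.2 y.2)

/-- The tensor power of a bipartite operator, Alice holding the first and Bob the second
factor of every copy. -/
def tensorPower {α β : Type} (ρ : Matrix (α × β) (α × β) ℂ) (m : ℕ) :
    Matrix ((Fin m → α) × (Fin m → β)) ((Fin m → α) × (Fin m → β)) ℂ :=
  fun x y => ∏ k, ρ (x.1 k, x.2 k) (y.1 k, y.2 k)

/-- Product of an operator of Alice and an operator of Bob. -/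
def prodOp {α β : Type} (a : Matrix α α ℂ) (b : Matrix β β ℂ) :
    Matrix (α × β) (α × β) ℂ :=
  fun x y => a x.1 y.1 * b x.2 y.2

/-- The trace norm: the sum of the singular values. -/
noncomputable def traceNorm {ι : Type} [Fintype ι] [DecidableEq ι] (X : Matrix ι ι ℂ) : ℝ :=
  ∑ i, Real.sqrt ((Matrix.posSemidef_conjTranspose_mul_self X).1.eigenvalues i)

end Vale.Agent.Results.P372.IndividualMeasurements
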