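import Vale.Agent.P372.Link

/-!
One transcript of a protocol on a linked state, for an eavesdropper's system of any size.
-/

open Matrix Finset
open scoped ComplexOrder

namespace Vale.Agent.P372.KeyBound

open Vale.Agent.Results.P372.IndividualMeasurements
open Vale.Agent.P372.Link

variable {α β α' β' ι κ ε : Type} [Fintype α] [DecidableEq α] [Fintype β] [DecidableEq β]
  [Fintype α'] [DecidableEq α'] [Fintype β'] [DecidableEq β'] [Fintype ι] [Fintype κ]
  [Fintype ε] [DecidableEq ε]

omit [Fintype α] [DecidableEq α] [Fintype β] [DecidableEq β] in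
lemma prodOp_sum {ι₁ ι₂ : Type} (s : Finset ι₁) (s' : Finset ι₂) (a : ι₁ → Matrix α α ℂ)
    (b : ι₂ → Matrix β β ℂ) :
    prodOp (∑ z ∈ s, a z) (∑ z' ∈ s', b z') = ∑ z ∈ s, ∑ z' ∈ s', prodOp (a z) (b z') := by
  ext x y
  simp only [prodOp, Matrix.sum_apply, Finset.sum_mul_sum]

/-- One transcript. -/
lemma transcript_boundE {ℓ : ℕ} (hℓ : 1 ≤ ℓ) (K : ι → Matrix α α' ℂ) (K' : κ → Matrix β β' ℂ)
    {r : ℕ} {r' : ℕ} (L : Fin r → Matrix α α' ℂ) (L' : Fin r' → Matrix β β' ℂ)
    (hL : ∀ i p i' q, coef K i p i' q = coef L i q i' p)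
    (hL' : ∀ i p i' q, coef K' i p i' q = coef L' i q i' p)
    {τ : Matrix (α' × β') (α' × β') ℂ} (hτ : τ.PosSemidef)
    (R : Matrix (α × β) ε ℂ) (hR : R * Rᴴ = channel (pairK K K') τ)
    (a : (Fin ℓ → Bool) → Matrix α α ℂ) (b : (Fin ℓ → Bool) → Matrix β β ℂ)
    (ha : ∀ z, (a z).PosSemidef) (hb : ∀ z, (b z).PosSemidef) (σ : Matrix ε ε ℂ) :
    ∃ M : ε → Matrix ε ε ℂ, (∀ w, (M w).PosSemidef) ∧ (∑ w, M w = 1) ∧
    σ.trace.re / 2 ≤ ∑ z, ∑ z', ∑ w, |(M w * (Rᴴ * prodOp (a z) (b z') * R -
      if z = z' then ((Fintype.card (Fin ℓ → Bool) : ℂ))⁻¹ • σ else 0)).trace.re| := by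
  classical
  set i0 : Fin ℓ := ⟨0, hℓ⟩
  let S : Bool → Finset (Fin ℓ → Bool) := fun c => univ.filter (fun z => z i0 = c)
  set X : (Fin ℓ → Bool) → (Fin ℓ → Bool) → Matrix ε ε ℂ := fun z z' =>
    Rᴴ * prodOp (a z) (b z') * R -
      if z = z' then ((Fintype.card (Fin ℓ → Bool) : ℂ))⁻¹ • σ else 0 with hX
  let ac : Bool → Matrix α α ℂ := fun c => ∑ z ∈ S c, a z
  let bc : Bool → Matrix β β ℂ := fun c => ∑ z ∈ S c, b z
  let E : Bool → Bool → Matrix ε ε ℂ := fun c c' => Rᴴ * prodOp (ac c) (bc c') * R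
  have hac : ∀ c, (ac c).PosSemidef := fun c => Matrix.posSemidef_sum _ fun z _ => ha z
  have hbc : ∀ c, (bc c).PosSemidef := fun c => Matrix.posSemidef_sum _ fun z _ => hb z
  have hcard : ∀ c, (S c).card * 2 = Fintype.card (Fin ℓ → Bool) := by
    intro c
    have hflip : (S c).card = (S (!c)).card := by
      refine Finset.card_bij' (fun z _ => Function.update z i0 (!c))
        (fun z _ => Function.update z i0 c) ?_ ?_ ?_ ?_
      · intro z _; simp [S]
      · intro z _; simp [S]
      · intro z hz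
        have : z i0 = c := by simpa [S] using hz
        simp [← this]
      · intro z hz
        have : z i0 = !c := by simpa [S] using hz
        simp [← this]
    have hsum : (S c).card + (S (!c)).card = Fintype.card (Fin ℓ → Bool) := by
      have h := Finset.card_filter_add_card_filter_not (s := (univ : Finset (Fin ℓ → Bool)))
        (fun z => z i0 = c)
      rw [card_univ] at h
      rw [← h]
      congr 2
      ext z
      cases z i0 <;> cases c <;> simp_all [S]
    omega
  have hideal : ∀ c c', ∑ z ∈ S c, ∑ z' ∈ S c', X z z' =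
      E c c' - if c = c' then (1 / 2 : ℂ) • σ else 0 := by
    intro c c'
    simp only [hX, sum_sub_distrib, E, ac, bc, prodOp_sum, Matrix.mul_sum, Matrix.sum_mul]
    congr 1
    by_cases h : c = c'
    · subst h
      rw [if_pos rfl]
      rw [sum_congr rfl (fun z hz => by rw [Finset.sum_ite_eq, if_pos hz])]
      rw [sum_const, ← Nat.cast_smul_eq_nsmul ℂ, smul_smul]
      congr 1
      have h2 : ((Fintype.card (Fin ℓ → Bool) : ℕ) : ℂ) = ((S c).card : ℂ) * 2 := by
        rw [← hcard c]; push_cast; ring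
      have hne : ((S c).card : ℂ) ≠ 0 := by
        intro h0
        have hpos : 0 < Fintype.card (Fin ℓ → Bool) := Fintype.card_pos
        rw [← hcard c] at hpos
        simp only [Nat.cast_eq_zero] at h0
        omega
      rw [h2]
      field_simp
    · rw [if_neg h]
      refine sum_eq_zero fun z hz => sum_eq_zero fun z' hz' => if_neg ?_
      rintro rfl
      apply h
      simp only [S, mem_filter, mem_univ, true_and] at hz hz'
      rw [← hz, ← hz']
  have hE : ∀ c c', (E c c').PosSemidef := fun c c' =>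
    (prodOp_psd (hac c) (hbc c')).conjTranspose_mul_mul_same R
  obtain ⟨A, Ai, hA, hAi, hAA, hAiE, hEAi, hAc⟩ := exists_root (hE false false)
  obtain ⟨B, Bi, hB, hBi, hBB, hBiE, hEBi, hBc⟩ := exists_root (hE true true)
  obtain ⟨M, hM, hMsum, hdist⟩ := root_distance hA hB
  refine ⟨M, hM, hMsum, ?_⟩
  set N : Matrix ε ε ℂ → ℝ := fun Y => ∑ w, |(M w * Y).trace.re| with hN
  set δ : Bool → Bool → ℝ := fun c c' => ∑ z ∈ S c, ∑ z' ∈ S c', N (X z z') with hδ
  have htot : δ false false + δ false true + δ true false + δ true true =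
      ∑ z, ∑ z', N (X z z') := by
    have hsplit : ∀ f : (Fin ℓ → Bool) → ℝ,
        (∑ z ∈ S false, f z) + (∑ z ∈ S true, f z) = ∑ z, f z := by
      intro f
      rw [← Finset.sum_filter_add_sum_filter_not univ (fun z => z i0 = false)]
      simp [S]
    simp only [hδ]
    rw [← hsplit (fun z => ∑ z', N (X z z'))]
    simp only [← hsplit (fun z' => N (X _ z')), sum_add_distrib]
    ring
  have hNtr : ∀ Y : Matrix ε ε ℂ, |Y.trace.re| ≤ N Y := by
    intro Y
    calc |Y.trace.re| = |∑ w, (M w * Y).trace.re| := by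
          rw [← Complex.re_sum, ← trace_sum, ← Matrix.sum_mul, hMsum, Matrix.one_mul]
      _ ≤ N Y := abs_sum_le_sum_abs _ _
  -- bounds from single measurements
  have hone : ∀ c c', |(E c c' - if c = c' then (1 / 2 : ℂ) • σ else 0).trace.re| ≤ δ c c' := by
    intro c c'
    rw [← hideal, trace_sum, Complex.re_sum]
    refine (abs_sum_le_sum_abs _ _).trans (sum_le_sum fun z _ => ?_)
    rw [trace_sum, Complex.re_sum]
    exact (abs_sum_le_sum_abs _ _).trans (sum_le_sum fun z' _ => hNtr _)
  have hD : ∑ w, |(M w * (A * A - B * B)).trace.re| ≤ δ false false + δ true true := by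
    have e : A * A - B * B = (∑ z ∈ S false, ∑ z' ∈ S false, X z z') -
        ∑ z ∈ S true, ∑ z' ∈ S true, X z z' := by
      rw [hideal, hideal, hAA, hBB]; simp
    have h1 : ∀ c, ∑ w, |(M w * ∑ z ∈ S c, ∑ z' ∈ S c, X z z').trace.re| ≤ δ c c := by
      intro c
      calc _ ≤ ∑ w, ∑ z ∈ S c, ∑ z' ∈ S c, |(M w * X z z').trace.re| := by
            refine sum_le_sum fun w _ => ?_
            simp only [Matrix.mul_sum, trace_sum, Complex.re_sum]
            exact (abs_sum_le_sum_abs _ _).trans (sum_le_sum fun z _ => abs_sum_le_sum_abs _ _)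
        _ = ∑ z ∈ S c, ∑ z' ∈ S c, ∑ w, |(M w * X z z').trace.re| := by
            rw [sum_comm]; exact sum_congr rfl fun z _ => sum_comm
        _ ≤ _ := le_rfl
    calc _ ≤ ∑ w, (|(M w * ∑ z ∈ S false, ∑ z' ∈ S false, X z z').trace.re| +
          |(M w * ∑ z ∈ S true, ∑ z' ∈ S true, X z z').trace.re|) := by
          refine sum_le_sum fun w _ => ?_
          rw [e, Matrix.mul_sub, trace_sub, Complex.sub_re]
          exact abs_sub _ _
      _ ≤ _ := by rw [sum_add_distrib]; exact add_le_add (h1 _) (h1 _)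
  -- the coherence between the two key values
  set P := prodOp (ac false) (bc false) with hP
  set Q := prodOp (ac true) (bc true) with hQ
  have hPp : P.PosSemidef := prodOp_psd (hac _) (hbc _)
  have hQp : Q.PosSemidef := prodOp_psd (hac _) (hbc _)
  set W := P * (Ai * Rᴴ)ᴴ * (Bi * Rᴴ) * Q with hW
  have hblock : (fromBlocks P W Wᴴ Q).PosSemidef := by
    have hG : (1 - Ai * Rᴴ * P * (Ai * Rᴴ)ᴴ).PosSemidef := by
      refine (congrArg Matrix.PosSemidef ?_).mp hAc
      rw [conjTranspose_mul, hAi, conjTranspose_conjTranspose]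
      simp only [E, ← hP, Matrix.mul_assoc]
    have hG' : (1 - Bi * Rᴴ * Q * (Bi * Rᴴ)ᴴ).PosSemidef := by
      refine (congrArg Matrix.PosSemidef ?_).mp hBc
      rw [conjTranspose_mul, hBi, conjTranspose_conjTranspose]
      simp only [E, ← hQ, Matrix.mul_assoc]
    obtain ⟨X1, hX1⟩ := psd_factor (contraction_psd hPp hG)
    obtain ⟨X2, hX2⟩ := psd_factor (contraction_psd hQp hG')
    have h1 := Matrix.posSemidef_conjTranspose_mul_self
      (fromBlocks (Ai * Rᴴ * P) (Bi * Rᴴ * Q) (0 : Matrix ε (α × β) ℂ) (0 : Matrix ε (α × β) ℂ))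
    have h2 := Matrix.posSemidef_conjTranspose_mul_self (fromBlocks X1 0 0 X2)
    refine (congrArg Matrix.PosSemidef ?_).mp (h1.add h2)
    rw [fromBlocks_conjTranspose, fromBlocks_conjTranspose, fromBlocks_multiply,
      fromBlocks_multiply, fromBlocks_add]
    simp only [conjTranspose_zero, Matrix.zero_mul, Matrix.mul_zero, add_zero, zero_add, ← hX1,
      ← hX2]
    have hPh := hPp.1.eq
    have hQh := hQp.1.eq
    congr 1
    · simp only [conjTranspose_mul, conjTranspose_conjTranspose, hPh, Matrix.mul_assoc]; abel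
    · simp only [hW, conjTranspose_mul, conjTranspose_conjTranspose, hPh, Matrix.mul_assoc]
    · simp only [hW, conjTranspose_mul, conjTranspose_conjTranspose, hPh, hQh, Matrix.mul_assoc]
    · simp only [conjTranspose_mul, conjTranspose_conjTranspose, hQh, Matrix.mul_assoc]; abel
  have hLp : ∀ i p i' q, coef (pairK K K') i p i' q = coef (pairK L L') i q i' p := by
    intro i p i' q
    rw [coef_pairK, coef_pairK, hL, hL']
  have hH := herm_block hLp hblock
  rw [hP, hQ, adj_pairK, adj_pairK] at hH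
  have hbound := avg_bound hτ (adj_psd K (hac false)) (adj_psd K' (hbc false))
    (adj_psd K (hac true)) (adj_psd K' (hbc true)) hH
  have hτH : (τ * ((1 / 2 : ℂ) • (adj (pairK K K') W + (adj (pairK K K') W)ᴴ))).trace.re =
      (A * B).trace.re := by
    have h1 : (τ * (adj (pairK K K') W)ᴴ).trace = star (τ * adj (pairK K K') W).trace := by
      rw [← trace_conjTranspose, conjTranspose_mul, hτ.1.eq, Matrix.trace_mul_comm]
    have h2 : (τ * adj (pairK K K') W).trace = (A * B).trace := by
      rw [← trace_channel, ← hR, ← hAiE, ← hBiE]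
      calc (R * Rᴴ * W).trace = (Rᴴ * P * R * Ai * (Bi * (Rᴴ * Q * R))).trace := by
            rw [Matrix.mul_assoc, Matrix.trace_mul_comm, hW, conjTranspose_mul, hAi,
              conjTranspose_conjTranspose]
            simp only [Matrix.mul_assoc]
        _ = _ := by
            simp only [E, ← hP, ← hQ] at hEAi hAiE ⊢
            rw [hEAi, hAiE]
    rw [Matrix.mul_smul, Matrix.mul_add, trace_smul, trace_add, h1, h2, smul_eq_mul]
    simp [Complex.add_re]
    ring
  rw [hτH] at hbound
  have hcross : ∀ c c', (τ * prodOp (adj K (ac c)) (adj K' (bc c'))).trace.re =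
      (E c c').trace.re := by
    intro c c'
    rw [← adj_pairK, ← trace_channel, ← hR, Matrix.mul_assoc, Matrix.trace_mul_comm]
  rw [hcross, hcross] at hbound
  rw [hAA, hBB] at hdist
  rw [hAA, hBB] at hD
  have b1 := (abs_le.1 (hone false false)).1
  have b2 := (abs_le.1 (hone true true)).1
  have b3 := (abs_le.1 (hone false true)).2
  have b4 := (abs_le.1 (hone true false)).2
  simp only [if_true, Bool.false_eq_true, Bool.true_eq_false, if_false, sub_zero, trace_sub,
    trace_smul, smul_eq_mul, Complex.sub_re] at b1 b2 b3 b4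
  rw [show ((1 / 2 : ℂ) * σ.trace).re = σ.trace.re / 2 by simp; ring] at b1 b2
  have b5 := (abs_nonneg _).trans (hone false true)
  have b6 := (abs_nonneg _).trans (hone true false)
  rw [← htot]
  linarith

end Vale.Agent.P372.KeyBound
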