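import Vale.Agent.P372.Lopc
import Vale.Agent.P372.KeyBound

/-!
No protocol of local operations and public communication distils key from linked states.
-/

open Matrix Finset
open scoped ComplexOrder Kronecker ENNReal

namespace Vale.Agent.P372.Lopc

open Vale.Agent.Results.P372.IndividualMeasurements
open Vale.Agent.P372.Link

lemma tensorPower_channel {α β α' β' ι κ : Type} [Fintype α'] [Fintype β'] [Fintype ι] [Fintype κ]
    (K : ι → Matrix α α' ℂ) (K' : κ → Matrix β β' ℂ)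
    (τ : Matrix (α' × β') (α' × β') ℂ) (m : ℕ) :
    tensorPower (channel (pairK K K') τ) m =
      channel (pairK (powK K m) (powK K' m)) (tensorPower τ m) := by
  classical
  ext x y
  simp only [tensorPower, channel_apply, coef_pairK, coef_powK, ← prod_mul_distrib]
  rw [Fintype.prod_sum,
    ← Equiv.sum_comp (Equiv.arrowProdEquivProdArrow (Fin m) (fun _ => α') (fun _ => β'))]
  refine sum_congr rfl fun p _ => ?_
  rw [Fintype.prod_sum,
    ← Equiv.sum_comp (Equiv.arrowProdEquivProdArrow (Fin m) (fun _ => α') (fun _ => β'))]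
  rfl

variable {ℓ : ℕ} {ε : Type} [Fintype ε] [DecidableEq ε]

/-- Alice's effect for a transcript and a key value. -/
def effA : {a b : ℕ} → (P : Prot ℓ a b) → Transcript P → Key ℓ → Matrix (Fin a) (Fin a) ℂ
  | _, _, .done A _ _ _, _, z => A z
  | _, _, .alice n _ _ K _ next, t, z =>
      let t' : Σ i : Fin n, Transcript (next i) := t
      adj (K t'.1) (effA (next t'.1) t'.2 z)
  | _, _, .bob n _ _ _ _ next, t, z =>
      let t' : Σ i : Fin n, Transcript (next i) := t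
      effA (next t'.1) t'.2 z

/-- Bob's effect for a transcript and a key value. -/
def effB : {a b : ℕ} → (P : Prot ℓ a b) → Transcript P → Key ℓ → Matrix (Fin b) (Fin b) ℂ
  | _, _, .done _ B _ _, _, z => B z
  | _, _, .alice n _ _ _ _ next, t, z =>
      let t' : Σ i : Fin n, Transcript (next i) := t
      effB (next t'.1) t'.2 z
  | _, _, .bob n _ _ K _ next, t, z =>
      let t' : Σ i : Fin n, Transcript (next i) := t
      adj (K t'.1) (effB (next t'.1) t'.2 z)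

lemma eff_psd : ∀ {a b : ℕ} (P : Prot ℓ a b) (t : Transcript P) (z : Key ℓ),
    (effA P t z).PosSemidef ∧ (effB P t z).PosSemidef
  | _, _, .done _ _ hA hB, _, z => ⟨hA.1 z, hB.1 z⟩
  | _, _, .alice n _ _ K _ next, t, z =>
      let t' : Σ i : Fin n, Transcript (next i) := t
      ⟨adj_psd (K t'.1) (eff_psd (next t'.1) t'.2 z).1, (eff_psd (next t'.1) t'.2 z).2⟩
  | _, _, .bob n _ _ K _ next, t, z =>
      let t' : Σ i : Fin n, Transcript (next i) := t
      ⟨(eff_psd (next t'.1) t'.2 z).1, adj_psd (K t'.1) (eff_psd (next t'.1) t'.2 z).2⟩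

section Ptr

variable {ι κ : Type} [Fintype ι] [Fintype κ]

omit [DecidableEq ε] [Fintype ε] in
lemma ptr_sum {J : Type} [Fintype J] (M : J → Matrix (ι × ε) (ι × ε) ℂ) :
    ptr (∑ j, M j) = ∑ j, ptr (M j) := by
  ext e e'
  simp only [ptr, Matrix.sum_apply]
  exact sum_comm

omit [Fintype κ] in
lemma kron_one_mul {ν : Type} (M : Matrix ν ι ℂ) (ω : Matrix (ι × ε) (κ × ε) ℂ) (x : ν)
    (e : ε) (y : κ × ε) :
    ((M ⊗ₖ (1 : Matrix ε ε ℂ)) * ω) (x, e) y = ∑ x', M x x' * ω (x', e) y := by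
  simp [Matrix.mul_apply, Fintype.sum_prod_type, Matrix.one_apply, ite_mul]

/-- Partial trace of a conjugated operator. -/
lemma ptr_conj (E : Matrix κ κ ℂ) (X : Matrix κ ι ℂ) (ω : Matrix (ι × ε) (ι × ε) ℂ) :
    ptr ((E ⊗ₖ (1 : Matrix ε ε ℂ)) *
      ((X ⊗ₖ (1 : Matrix ε ε ℂ)) * ω * (X ⊗ₖ (1 : Matrix ε ε ℂ))ᴴ)) =
    ptr (((Xᴴ * E * X) ⊗ₖ (1 : Matrix ε ε ℂ)) * ω) := by
  ext e e'
  have h : ∀ (Z : Matrix ι ι ℂ) (f f' : ε), ∀ x, ((Z ⊗ₖ (1 : Matrix ε ε ℂ)) * ω) (x, f) (x, f') =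
      (Z * (Matrix.of fun p q => ω (p, f) (q, f'))) x x := by
    intro Z f f' x
    rw [kron_one_mul]; rfl
  set W : Matrix ι ι ℂ := Matrix.of fun p q => ω (p, e) (q, e') with hW
  have h2 : ∀ p q, ((X ⊗ₖ (1 : Matrix ε ε ℂ)) * ω * (X ⊗ₖ (1 : Matrix ε ε ℂ))ᴴ) (p, e) (q, e') =
      (X * W * Xᴴ) p q := by
    intro p q
    simp [hW, Matrix.mul_apply, Fintype.sum_prod_type, Matrix.one_apply, ite_mul, mul_ite,
      apply_ite (starRingEnd ℂ), Finset.sum_ite_eq]
  calc ptr ((E ⊗ₖ (1 : Matrix ε ε ℂ)) *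
        ((X ⊗ₖ (1 : Matrix ε ε ℂ)) * ω * (X ⊗ₖ (1 : Matrix ε ε ℂ))ᴴ)) e e'
      = (E * (X * W * Xᴴ)).trace := by
        simp only [ptr, kron_one_mul, h2]
        rfl
    _ = ((Xᴴ * E * X) * W).trace := by
        rw [← Matrix.mul_assoc, ← Matrix.mul_assoc, Matrix.trace_mul_comm (E * X * W)]
        simp only [Matrix.mul_assoc]
    _ = _ := by
        simp only [ptr, h, ← hW]
        rfl

end Ptr

lemma adj_kron_left {a a' b : ℕ} {J : Type} [Fintype J] (K : J → Matrix (Fin a') (Fin a) ℂ)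
    (A : Matrix (Fin a') (Fin a') ℂ) (B : Matrix (Fin b) (Fin b) ℂ) :
    ∑ j, (K j ⊗ₖ (1 : Matrix (Fin b) (Fin b) ℂ))ᴴ * (A ⊗ₖ B) *
        (K j ⊗ₖ (1 : Matrix (Fin b) (Fin b) ℂ)) = adj K A ⊗ₖ B := by
  simp only [Matrix.conjTranspose_kronecker, ← Matrix.mul_kronecker_mul, conjTranspose_one,
    Matrix.one_mul, Matrix.mul_one, adj]
  ext x y
  simp [Matrix.sum_apply, sum_mul]

lemma adj_kron_right {a b b' : ℕ} {J : Type} [Fintype J] (K : J → Matrix (Fin b') (Fin b) ℂ)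
    (A : Matrix (Fin a) (Fin a) ℂ) (B : Matrix (Fin b') (Fin b') ℂ) :
    ∑ j, ((1 : Matrix (Fin a) (Fin a) ℂ) ⊗ₖ K j)ᴴ * (A ⊗ₖ B) *
        ((1 : Matrix (Fin a) (Fin a) ℂ) ⊗ₖ K j) = A ⊗ₖ adj K B := by
  simp only [Matrix.conjTranspose_kronecker, ← Matrix.mul_kronecker_mul, conjTranspose_one,
    Matrix.one_mul, Matrix.mul_one, adj]
  ext x y
  simp [Matrix.sum_apply, mul_sum]

lemma ptr_sum_conj {ι κ J : Type} [Fintype ι] [Fintype κ] [Fintype J] (E : Matrix κ κ ℂ)
    (X : J → Matrix κ ι ℂ) (ω : Matrix (ι × ε) (ι × ε) ℂ) :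
    ptr ((E ⊗ₖ (1 : Matrix ε ε ℂ)) *
      ∑ j, (X j ⊗ₖ (1 : Matrix ε ε ℂ)) * ω * (X j ⊗ₖ (1 : Matrix ε ε ℂ))ᴴ) =
    ptr (((∑ j, (X j)ᴴ * E * X j) ⊗ₖ (1 : Matrix ε ε ℂ)) * ω) := by
  rw [Matrix.mul_sum, ptr_sum]
  simp only [ptr_conj]
  rw [← ptr_sum, ← Matrix.sum_mul]
  congr 2
  ext x y
  simp [Matrix.sum_apply, sum_mul]

/-- A protocol acts on the state by product effects. -/
lemma run_eq : ∀ {a b : ℕ} (P : Prot ℓ a b)
    (ω : Matrix ((Fin a × Fin b) × ε) ((Fin a × Fin b) × ε) ℂ) (t : Transcript P) (z z' : Key ℓ),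
    run P ω t z z' = ptr (((effA P t z ⊗ₖ effB P t z') ⊗ₖ (1 : Matrix ε ε ℂ)) * ω)
  | _, _, .done A B _ _, _, _, _, _ => rfl
  | _, b, .alice n _ _ K _ next, ω, t, z, z' => by
      let t' : Σ i : Fin n, Transcript (next i) := t
      have h := run_eq (next t'.1) (∑ j, ((K t'.1 j ⊗ₖ (1 : Matrix (Fin b) (Fin b) ℂ)) ⊗ₖ
        (1 : Matrix ε ε ℂ)) * ω * ((K t'.1 j ⊗ₖ (1 : Matrix (Fin b) (Fin b) ℂ)) ⊗ₖ
        (1 : Matrix ε ε ℂ))ᴴ) t'.2 z z'
      rw [ptr_sum_conj, adj_kron_left] at h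
      exact h
  | a, _, .bob n _ _ K _ next, ω, t, z, z' => by
      let t' : Σ i : Fin n, Transcript (next i) := t
      have h := run_eq (next t'.1) (∑ j, (((1 : Matrix (Fin a) (Fin a) ℂ) ⊗ₖ K t'.1 j) ⊗ₖ
        (1 : Matrix ε ε ℂ)) * ω * (((1 : Matrix (Fin a) (Fin a) ℂ) ⊗ₖ K t'.1 j) ⊗ₖ
        (1 : Matrix ε ε ℂ))ᴴ) t'.2 z z'
      rw [ptr_sum_conj, adj_kron_right] at h
      exact h

lemma run_pure {a b : ℕ} (P : Prot ℓ a b) (S : Matrix (Fin a × Fin b) ε ℂ) (t : Transcript P)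
    (z z' : Key ℓ) :
    run P (pureState S) t z z' = (Sᴴ * prodOp (effA P t z) (effB P t z') * S)ᵀ := by
  rw [run_eq]
  ext e e'
  simp only [ptr, kron_one_mul]
  simp only [pureState, Matrix.transpose_apply, Matrix.mul_apply,
    conjTranspose_apply, prodOp, Matrix.kroneckerMap_apply, sum_mul]
  rw [sum_comm]
  refine sum_congr rfl fun x _ => sum_congr rfl fun x' _ => ?_
  ring

/-- The error on a purified state of the linked form. -/
lemma final_far {a b : ℕ} {α' β' ι κ : Type} [Fintype α'] [DecidableEq α'] [Fintype β']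
    [DecidableEq β'] [Fintype ι] [Fintype κ] (hℓ : 1 ≤ ℓ)
    (K : ι → Matrix (Fin a) α' ℂ) (K' : κ → Matrix (Fin b) β' ℂ) {r r' : ℕ}
    (L : Fin r → Matrix (Fin a) α' ℂ) (L' : Fin r' → Matrix (Fin b) β' ℂ)
    (hL : ∀ i p i' q, coef K i p i' q = coef L i q i' p)
    (hL' : ∀ i p i' q, coef K' i p i' q = coef L' i q i' p)
    {τ : Matrix (α' × β') (α' × β') ℂ} (hτ : τ.PosSemidef)
    (S : Matrix (Fin a × Fin b) ε ℂ) (hS : S * Sᴴ = channel (pairK K K') τ)
    (P : Prot ℓ a b) (σ : Matrix (Transcript P × ε) (Transcript P × ε) ℂ) (hσ : σ.trace = 1) :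
    1 / 2 ≤ traceNorm (finalState P (pureState S) - idealKey ℓ σ) := by
  classical
  let σ' : Transcript P → Matrix ε ε ℂ := fun t => Matrix.of fun e e' => σ (t, e') (t, e)
  choose M hM hMsum hbound using fun t => KeyBound.transcript_boundE hℓ K K' L L' hL hL' hτ S hS
    (effA P t) (effB P t) (fun z => (eff_psd P t z).1) (fun z => (eff_psd P t z).2) (σ' t)
  let W : (Key ℓ × Key ℓ) × Transcript P × ε →
      Matrix ((Key ℓ × Key ℓ) × (Transcript P × ε)) ((Key ℓ × Key ℓ) × (Transcript P × ε)) ℂ :=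
    fun w => Matrix.single w.1 w.1 1 ⊗ₖ (Matrix.single w.2.1 w.2.1 1 ⊗ₖ (M w.2.1 w.2.2)ᵀ)
  have hsingle : ∀ {η : Type} [Fintype η] [DecidableEq η] (k : η),
      (Matrix.single k k (1:ℂ)).PosSemidef := by
    intro η _ _ k
    rw [← Matrix.diagonal_single, Matrix.posSemidef_diagonal_iff]
    intro i
    by_cases h : i = k
    · subst h; simp
    · simp [Pi.single_eq_of_ne h]
  have hW : ∀ w, (W w).PosSemidef := fun w =>
    (hsingle w.1).kronecker ((hsingle w.2.1).kronecker (hM w.2.1 w.2.2).transpose)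
  have hWsum : ∑ w, W w = 1 := by
    have hk : ∀ {η : Type} [Fintype η] [DecidableEq η],
        ∑ k : η, Matrix.single k k (1:ℂ) = 1 := by
      intro η _ _
      ext x y
      simp [Matrix.sum_apply, Matrix.single_apply, Matrix.one_apply, ite_and]
    have hin : ∀ t : Transcript P, ∑ e, (M t e)ᵀ = 1 := by
      intro t; rw [← Matrix.transpose_sum, hMsum, Matrix.transpose_one]
    calc ∑ w, W w = ∑ k : Key ℓ × Key ℓ, ∑ p : Transcript P × ε, W (k, p) :=
          Fintype.sum_prod_type _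
      _ = ∑ k : Key ℓ × Key ℓ, ∑ t, ∑ e, W (k, t, e) :=
          sum_congr rfl fun k _ => Fintype.sum_prod_type _
      _ = (∑ k : Key ℓ × Key ℓ, Matrix.single k k (1:ℂ)) ⊗ₖ
            ∑ t, Matrix.single t t (1:ℂ) ⊗ₖ ∑ e, (M t e)ᵀ := by
          ext x y
          simp only [W, Matrix.sum_apply, Matrix.kroneckerMap_apply, sum_mul, mul_sum]
          exact sum_comm.trans (sum_congr rfl fun t _ => sum_comm)
      _ = 1 := by
          simp only [hin]
          rw [hk]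
          have : ∑ t : Transcript P, Matrix.single t t (1:ℂ) ⊗ₖ (1 : Matrix ε ε ℂ) =
              (∑ t : Transcript P, Matrix.single t t (1:ℂ)) ⊗ₖ (1 : Matrix ε ε ℂ) := by
            ext x y
            simp only [Matrix.sum_apply, Matrix.kroneckerMap_apply, sum_mul]
          rw [this, hk, Matrix.one_kronecker_one, Matrix.one_kronecker_one]
  have hval : ∀ k t w, (W (k, t, w) * (finalState P (pureState S) - idealKey ℓ σ)).trace =
      (M t w * (Sᴴ * prodOp (effA P t k.1) (effB P t k.2) * S -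
        if k.1 = k.2 then ((Fintype.card (Key ℓ) : ℂ))⁻¹ • σ' t else 0)).trace := by
    intro k t w
    have e0 : (Fintype.card (Key ℓ) : ℂ) = 2 ^ ℓ := by simp
    rw [← Matrix.trace_transpose (M t w * _), Matrix.transpose_mul, Matrix.trace_mul_comm]
    simp only [Matrix.trace, Matrix.diag, Matrix.mul_apply, W, Matrix.kroneckerMap_apply,
      Matrix.single_apply, Fintype.sum_prod_type, ite_mul, one_mul, zero_mul, mul_ite, mul_zero,
      ite_and, Finset.sum_ite_irrel, Finset.sum_const_zero, Finset.sum_ite_eq, Finset.mem_univ,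
      if_true, Matrix.sub_apply, Matrix.transpose_apply, finalState, idealKey, run_pure, e0]
    refine sum_congr rfl fun e _ => sum_congr rfl fun e' _ => ?_
    by_cases h : k.1 = k.2 <;> simp [h, σ', Matrix.smul_apply]
  calc (1 / 2 : ℝ) = ∑ t, (σ' t).trace.re / 2 := by
        rw [← sum_div, ← Complex.re_sum]
        have : ∑ t, (σ' t).trace = σ.trace := by
          simp [σ', Matrix.trace, Matrix.diag, Fintype.sum_prod_type]
        rw [this, hσ]; simp
    _ ≤ ∑ t, ∑ z, ∑ z', ∑ w, |((W ((z, z'), t, w)) *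
          (finalState P (pureState S) - idealKey ℓ σ)).trace.re| :=
        sum_le_sum fun t _ => by simp only [hval]; exact hbound t
    _ = ∑ v, |(W v * (finalState P (pureState S) - idealKey ℓ σ)).trace.re| := by
        simp only [Fintype.sum_prod_type]
        rw [sum_comm]
        exact sum_congr rfl fun z _ => sum_comm
    _ ≤ _ := measured_le_traceNorm W hW hWsum _

/-- Every protocol on copies of a linked state errs by one half, and the state has no key. -/
theorem noKey_of_link {dA dA' dB dB' r r' s s' : ℕ}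
    (K : Fin r → Matrix (Fin dA) (Fin dA') ℂ) (K' : Fin r' → Matrix (Fin dB) (Fin dB') ℂ)
    (L : Fin s → Matrix (Fin dA) (Fin dA') ℂ) (L' : Fin s' → Matrix (Fin dB) (Fin dB') ℂ)
    (hL : ∀ i p i' q, coef K i p i' q = coef L i q i' p)
    (hL' : ∀ i p i' q, coef K' i p i' q = coef L' i q i' p)
    {τ : Matrix (Fin dA' × Fin dB') (Fin dA' × Fin dB') ℂ} (hτ : τ.PosSemidef)
    (R : Matrix (Fin dA × Fin dB) ε ℂ) (hR : R * Rᴴ = channel (pairK K K') τ) :
    (∀ (n ℓ : ℕ) (P : Prot ℓ (dA ^ n) (dB ^ n)) (δ : ℝ),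
      1 ≤ ℓ → HasError R P δ → 1 / 2 ≤ δ) ∧ KD R = 0 := by
  have main : ∀ (n ℓ : ℕ) (P : Prot ℓ (dA ^ n) (dB ^ n)) (δ : ℝ),
      1 ≤ ℓ → HasError R P δ → 1 / 2 ≤ δ := by
    intro n ℓ P δ hℓ ⟨σ, hσ, hδ⟩
    refine le_trans ?_ hδ
    let g {d : ℕ} : Fin (d ^ n) ≃ (Fin n → Fin d) := finFunctionFinEquiv.symm
    let lift {d d' u : ℕ} (F : Fin u → Matrix (Fin d) (Fin d') ℂ) :
        Fin (Fintype.card (Fin n → Fin u)) → Matrix (Fin (d ^ n)) (Fin n → Fin d') ℂ :=
      fun j x p => powK F n ((Fintype.equivFin _).symm j) (g x) p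
    have hlift : ∀ {d d' u : ℕ} (F : Fin u → Matrix (Fin d) (Fin d') ℂ) i p i' q,
        coef (lift F) i p i' q = ∏ k, coef F (g i k) (p k) (g i' k) (q k) := by
      intro d d' u F i p i' q
      rw [← coef_powK]
      exact Equiv.sum_comp (Fintype.equivFin (Fin n → Fin u)).symm
        (fun j => powK F n j (g i) p * star (powK F n j (g i') q))
    refine final_far hℓ (lift K) (lift K') (lift L) (lift L') ?_ ?_
      (τ := tensorPower τ n) ?_ _ ?_ P σ hσ.2
    · intro i p i' q; simp only [hlift, hL]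
    · intro i p i' q; simp only [hlift, hL']
    · rw [tensorPower_eq]; exact tfam_psd fun _ => hτ
    · have h1 := tensorPower_channel K K' τ n
      ext x y
      have h2 := congrFun (congrFun h1 (g x.1, g x.2)) (g y.1, g y.2)
      simp only [channel_apply, coef_pairK, coef_powK] at h2
      simp only [channel_apply, coef_pairK, hlift]
      rw [← h2, ← hR]
      simp only [tensorPower, nCopies, Matrix.mul_apply, conjTranspose_apply, star_prod,
        ← prod_mul_distrib, g]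
      rw [Fintype.prod_sum]
  refine ⟨main, ?_⟩
  refine le_antisymm (iSup₂_le ?_) bot_le
  rintro m ⟨P, δ, hδ, hP⟩
  have hev : ∀ᶠ n in Filter.atTop, m n = 0 := by
    filter_upwards [hδ.eventually (gt_mem_nhds (show (0:ℝ) < 1 / 2 by norm_num))] with n hn
    by_contra h
    exact absurd (main n (m n) (P n) (δ n) (Nat.one_le_iff_ne_zero.2 h) (hP n)) (not_le.2 hn)
  have h0 : (fun n => (m n : ℝ≥0∞) / (n : ℝ≥0∞)) =ᶠ[Filter.atTop] fun _ => 0 := by
    filter_upwards [hev] with n hn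
    simp [hn]
  rw [Filter.liminf_congr h0, Filter.liminf_const]

end Vale.Agent.P372.Lopc
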