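import Vale.Agent.Results.P372.IndividualMeasurements

/-!
States obtained by applying maps with positive partial transpose on both sides give no key.
-/

open Matrix Finset
open scoped ComplexOrder

namespace Vale.Agent.P372.Link

open Vale.Agent.Results.P372.IndividualMeasurements

section Chan

variable {α α' β β' ι κ : Type}

/-- The completely positive map with Kraus operators `K`. -/
def channel [Fintype α'] [Fintype ι] (K : ι → Matrix α α' ℂ) (x : Matrix α' α' ℂ) :
    Matrix α α ℂ :=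
  ∑ j, K j * x * (K j)ᴴ

/-- The adjoint map. -/
def adj [Fintype α] [Fintype ι] (K : ι → Matrix α α' ℂ) (a : Matrix α α ℂ) : Matrix α' α' ℂ :=
  ∑ j, (K j)ᴴ * a * K j

/-- The map followed by a transposition of the input is again completely positive. -/
def CoCP [Fintype α'] [Fintype ι] (K : ι → Matrix α α' ℂ) : Prop :=
  ∃ (r : ℕ) (L : Fin r → Matrix α α' ℂ), ∀ x, channel K x = channel L xᵀ

/-- Entries of the map. -/
def coef [Fintype ι] (K : ι → Matrix α α' ℂ) (i : α) (p : α') (i' : α) (q : α') : ℂ :=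
  ∑ j, K j i p * star (K j i' q)

/-- Tensor product of two Kraus families. -/
def pairK (K : ι → Matrix α α' ℂ) (K' : κ → Matrix β β' ℂ) :
    ι × κ → Matrix (α × β) (α' × β') ℂ :=
  fun j x y => K j.1 x.1 y.1 * K' j.2 x.2 y.2

/-- The Kraus family of a tensor power. -/
def powK (K : ι → Matrix α α' ℂ) (m : ℕ) : (Fin m → ι) → Matrix (Fin m → α) (Fin m → α') ℂ :=
  fun f x y => ∏ k, K (f k) (x k) (y k)

lemma channel_apply [Fintype α'] [Fintype ι] (K : ι → Matrix α α' ℂ) (x : Matrix α' α' ℂ)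
    (i i' : α) : channel K x i i' = ∑ p, ∑ q, x p q * coef K i p i' q := by
  simp only [channel, coef, Matrix.sum_apply, Matrix.mul_apply, conjTranspose_apply, sum_mul,
    mul_sum]
  refine (sum_congr rfl fun j _ => sum_comm).trans (sum_comm.trans ?_)
  refine sum_congr rfl fun p _ => ?_
  rw [sum_comm]
  exact sum_congr rfl fun q _ => sum_congr rfl fun j _ => by ring

lemma adj_apply [Fintype α] [Fintype ι] (K : ι → Matrix α α' ℂ) (a : Matrix α α ℂ) (p q : α') :
    adj K a p q = ∑ i, ∑ i', a i i' * coef K i' q i p := by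
  simp only [adj, coef, Matrix.sum_apply, Matrix.mul_apply, conjTranspose_apply, sum_mul,
    mul_sum]
  refine (sum_congr rfl fun j _ => sum_comm).trans (sum_comm.trans ?_)
  refine sum_congr rfl fun i _ => ?_
  rw [sum_comm]
  exact sum_congr rfl fun i' _ => sum_congr rfl fun j _ => by ring

lemma CoCP.coef_eq [Fintype α'] [Fintype ι] {K : ι → Matrix α α' ℂ} (h : CoCP K) :
    ∃ (r : ℕ) (L : Fin r → Matrix α α' ℂ), ∀ i p i' q, coef K i p i' q = coef L i q i' p := by
  classical
  obtain ⟨r, L, hL⟩ := h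
  refine ⟨r, L, fun i p i' q => ?_⟩
  have := congrFun (congrFun (hL (Matrix.single p q 1)) i) i'
  simpa [channel_apply, Matrix.transpose_apply, Matrix.single_apply, ite_and, ite_mul,
    Finset.sum_ite_eq] using this

lemma coef_pairK [Fintype ι] [Fintype κ] (K : ι → Matrix α α' ℂ) (K' : κ → Matrix β β' ℂ)
    (i : α × β) (p : α' × β') (i' : α × β) (q : α' × β') :
    coef (pairK K K') i p i' q = coef K i.1 p.1 i'.1 q.1 * coef K' i.2 p.2 i'.2 q.2 := by
  simp only [coef, pairK, Fintype.sum_prod_type, sum_mul, mul_sum, star_mul']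
  conv_rhs => rw [sum_comm]
  exact sum_congr rfl fun a _ => sum_congr rfl fun b _ => by ring

lemma coef_powK [Fintype ι] (K : ι → Matrix α α' ℂ) (m : ℕ) (i : Fin m → α) (p : Fin m → α')
    (i' : Fin m → α) (q : Fin m → α') :
    coef (powK K m) i p i' q = ∏ k, coef K (i k) (p k) (i' k) (q k) := by
  simp only [coef, powK, star_prod, ← prod_mul_distrib]
  rw [Fintype.prod_sum]

lemma adj_transpose [Fintype α] [Fintype ι] [Fintype κ] {K : ι → Matrix α α' ℂ}
    {L : κ → Matrix α α' ℂ} (h : ∀ i p i' q, coef K i p i' q = coef L i q i' p)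
    (a : Matrix α α ℂ) : adj K a = (adj L a)ᵀ := by
  ext p q
  rw [Matrix.transpose_apply, adj_apply, adj_apply]
  exact sum_congr rfl fun i _ => sum_congr rfl fun i' _ => by rw [h]

lemma adj_pairK [Fintype α] [Fintype β] [Fintype ι] [Fintype κ] (K : ι → Matrix α α' ℂ)
    (K' : κ → Matrix β β' ℂ) (a : Matrix α α ℂ) (b : Matrix β β ℂ) :
    adj (pairK K K') (prodOp a b) = prodOp (adj K a) (adj K' b) := by
  ext p q
  simp only [adj_apply, coef_pairK, prodOp, Fintype.sum_prod_type]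
  rw [Finset.sum_mul]
  refine sum_congr rfl fun i _ => ?_
  rw [Finset.sum_mul_sum, sum_comm]
  refine sum_congr rfl fun i' _ => sum_congr rfl fun j _ => ?_
  rw [mul_sum]
  refine sum_congr rfl fun j' _ => ?_
  ring

lemma trace_channel [Fintype α] [Fintype α'] [Fintype ι] (K : ι → Matrix α α' ℂ)
    (x : Matrix α' α' ℂ) (a : Matrix α α ℂ) : (channel K x * a).trace = (x * adj K a).trace := by
  simp only [channel, adj, Matrix.sum_mul, Matrix.mul_sum, trace_sum]
  refine sum_congr rfl fun j _ => ?_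
  rw [Matrix.mul_assoc, Matrix.mul_assoc, Matrix.trace_mul_comm]
  simp only [Matrix.mul_assoc]

lemma adj_psd [Fintype α] [Fintype α'] [Fintype ι] (K : ι → Matrix α α' ℂ) {a : Matrix α α ℂ}
    (h : a.PosSemidef) : (adj K a).PosSemidef :=
  Matrix.posSemidef_sum _ fun _ _ => h.conjTranspose_mul_mul_same _

lemma adj_conjTranspose [Fintype α] [Fintype ι] (K : ι → Matrix α α' ℂ) (a : Matrix α α ℂ) :
    (adj K a)ᴴ = adj K aᴴ := by
  simp [adj, conjTranspose_sum, conjTranspose_mul, Matrix.mul_assoc]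

lemma adj_block [Fintype α] [Fintype α'] [Fintype ι] (K : ι → Matrix α α' ℂ)
    {P X Y Q : Matrix α α ℂ} (h : (fromBlocks P X Y Q).PosSemidef) :
    (fromBlocks (adj K P) (adj K X) (adj K Y) (adj K Q)).PosSemidef := by
  have e : fromBlocks (adj K P) (adj K X) (adj K Y) (adj K Q) =
      ∑ j, (fromBlocks (K j) 0 0 (K j))ᴴ * fromBlocks P X Y Q * fromBlocks (K j) 0 0 (K j) := by
    simp only [fromBlocks_conjTranspose, fromBlocks_multiply, conjTranspose_zero]
    ext (i | i) (j | j) <;> simp [adj, Matrix.sum_apply, fromBlocks]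
  rw [e]
  exact Matrix.posSemidef_sum _ fun _ _ => h.conjTranspose_mul_mul_same _

/-- The Hermitian part of the image of the coherence obeys the same bound as the coherence. -/
lemma herm_block [Fintype α] [Fintype α'] [Fintype ι] [Fintype κ] {K : ι → Matrix α α' ℂ}
    {L : κ → Matrix α α' ℂ} (hL : ∀ i p i' q, coef K i p i' q = coef L i q i' p)
    {P X Q : Matrix α α ℂ} (h : (fromBlocks P X Xᴴ Q).PosSemidef) :
    (fromBlocks (adj K P) ((1 / 2 : ℂ) • (adj K X + (adj K X)ᴴ))
      ((1 / 2 : ℂ) • (adj K X + (adj K X)ᴴ)) (adj K Q)).PosSemidef := by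
  have h1 := adj_block K h
  have h2 := (adj_block L h).transpose
  rw [fromBlocks_transpose, ← adj_transpose hL, ← adj_transpose hL, ← adj_transpose hL,
    ← adj_transpose hL] at h2
  rw [← adj_conjTranspose] at h1 h2
  have h3 := (h1.add h2).smul (show (0:ℂ) ≤ 1 / 2 by
    rw [show (1 / 2 : ℂ) = (((1 / 2 : ℝ)) : ℂ) by simp]
    exact_mod_cast (by norm_num : (0:ℝ) ≤ 1 / 2))
  refine (congrArg Matrix.PosSemidef ?_).mp h3
  rw [fromBlocks_add, fromBlocks_smul]
  congr 1
  · ext i j; simp; ring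
  · rw [add_comm ((adj K X)ᴴ)]
  · ext i j; simp; ring

end Chan

section Bound

variable {ι α β : Type} [Fintype ι] [DecidableEq ι] [Fintype α] [DecidableEq α] [Fintype β]
  [DecidableEq β]

lemma kron_eq {α β : Type} (a : Matrix α α ℂ) (b : Matrix β β ℂ) :
    prodOp a b = Matrix.kroneckerMap (fun x y => x * y) a b := rfl

lemma prodOp_mul (a c : Matrix α α ℂ) (b d : Matrix β β ℂ) :
    prodOp a b * prodOp c d = prodOp (a * c) (b * d) := by
  simp only [kron_eq, Matrix.mul_kronecker_mul]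

lemma prodOp_psd {a : Matrix α α ℂ} {b : Matrix β β ℂ} (ha : a.PosSemidef) (hb : b.PosSemidef) :
    (prodOp a b).PosSemidef := by
  rw [kron_eq]; exact ha.kronecker hb

lemma prodOp_star (a : Matrix α α ℂ) (b : Matrix β β ℂ) :
    (prodOp a b)ᴴ = prodOp aᴴ bᴴ := by
  ext x y; simp [prodOp]

/-- Domination by a square forces domination by its root. -/
lemma le_of_block {M K : Matrix ι ι ℂ} (hM : M.PosDef) (hK : K.IsHermitian)
    (h : (fromBlocks 1 K K (M * M)).PosSemidef) : (M - K).PosSemidef := by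
  have hY : (M - K).IsHermitian := hM.1.sub hK
  rw [hY.posSemidef_iff_eigenvalues_nonneg]
  intro i
  show (0:ℝ) ≤ _
  set v : ι → ℂ := ⇑(hY.eigenvectorBasis i) with hv
  set l : ℝ := hY.eigenvalues i with hl
  have hvec : (M - K) *ᵥ v = (l : ℂ) • v := by
    rw [hv, hY.mulVec_eigenvectorBasis i, hl]
    ext j; simp
  have hv0 : v ≠ 0 := by
    intro h0
    have := (hY.eigenvectorBasis).orthonormal.ne_zero i
    apply this
    ext j
    simpa using congrFun h0 j
  have hq := h.dotProduct_mulVec_nonneg (Sum.elim (M *ᵥ v) (-v))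
  rw [fromBlocks_mulVec] at hq
  simp only [Sum.elim_comp_inl, Sum.elim_comp_inr, Matrix.one_mulVec, mulVec_neg] at hq
  have e : star (Sum.elim (M *ᵥ v) (-v)) ⬝ᵥ
      Sum.elim (M *ᵥ v + -(K *ᵥ v)) (K *ᵥ (M *ᵥ v) + -((M * M) *ᵥ v)) =
      star (M *ᵥ v) ⬝ᵥ ((M - K) *ᵥ v) + star v ⬝ᵥ ((M - K) *ᵥ (M *ᵥ v)) := by
    have hs : star (Sum.elim (M *ᵥ v) (-v)) = Sum.elim (star (M *ᵥ v)) (-star v) := by
      funext j; cases j <;> simp
    rw [hs, sumElim_dotProduct_sumElim, Matrix.sub_mulVec, Matrix.sub_mulVec, mulVec_mulVec v M M]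
    simp only [← sub_eq_add_neg, dotProduct_sub, neg_dotProduct]
    ring
  rw [e] at hq
  have e1 : star (M *ᵥ v) ⬝ᵥ ((M - K) *ᵥ v) = (l : ℂ) * (star v ⬝ᵥ (M *ᵥ v)) := by
    rw [hvec, dotProduct_smul, star_mulVec, hM.1.eq, ← dotProduct_mulVec, smul_eq_mul]
  have e2 : star v ⬝ᵥ ((M - K) *ᵥ (M *ᵥ v)) = (l : ℂ) * (star v ⬝ᵥ (M *ᵥ v)) := by
    rw [dotProduct_mulVec]
    have : star v ᵥ* (M - K) = star ((M - K) *ᵥ v) := by rw [star_mulVec, hY.eq]
    rw [this, hvec, star_smul, smul_dotProduct, smul_eq_mul, Complex.star_def, Complex.conj_ofReal]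
  rw [e1, e2] at hq
  have hp := hM.dotProduct_mulVec_pos hv0
  have hq1 := (Complex.nonneg_iff.1 hq).1
  have hp1 := (Complex.pos_iff.1 hp).1
  simp only [Complex.add_re, Complex.mul_re, Complex.ofReal_re, Complex.ofReal_im, zero_mul,
    sub_zero] at hq1
  nlinarith

lemma avg_bound_posDef {A C : Matrix α α ℂ} {B D : Matrix β β ℂ} {H : Matrix (α × β) (α × β) ℂ}
    (hA : A.PosDef) (hB : B.PosDef) (hC : C.PosDef) (hD : D.PosDef)
    (h : (fromBlocks (prodOp A B) H H (prodOp C D)).PosSemidef) :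
    ((1 / 2 : ℂ) • (prodOp A D + prodOp C B) - H).PosSemidef := by
  obtain ⟨Za, hZa⟩ := psd_factor hA.posSemidef
  obtain ⟨Zb, hZb⟩ := psd_factor hB.posSemidef
  have hua : IsUnit Za.det := by
    have := (Matrix.isUnit_iff_isUnit_det A).1 hA.isUnit
    rw [hZa, det_mul] at this
    exact isUnit_of_mul_isUnit_right this
  have hub : IsUnit Zb.det := by
    have := (Matrix.isUnit_iff_isUnit_det B).1 hB.isUnit
    rw [hZb, det_mul] at this
    exact isUnit_of_mul_isUnit_right this
  set Wa := Za⁻¹ with hWa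
  set Wb := Zb⁻¹ with hWb
  have hZW : Za * Wa = 1 := Matrix.mul_nonsing_inv _ hua
  have hWZ : Wa * Za = 1 := Matrix.nonsing_inv_mul _ hua
  have hZW' : Zb * Wb = 1 := Matrix.mul_nonsing_inv _ hub
  have hWZ' : Wb * Zb = 1 := Matrix.nonsing_inv_mul _ hub
  have hstar : ∀ {γ : Type} [Fintype γ] [DecidableEq γ] (W Z : Matrix γ γ ℂ), Z * W = 1 →
      Wᴴ * Zᴴ = 1 := by
    intro γ _ _ W Z hh
    rw [← conjTranspose_mul, hh, conjTranspose_one]
  set S := prodOp Za Zb with hS
  set Si := prodOp Wa Wb with hSi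
  set C' := Waᴴ * C * Wa with hC'
  set D' := Wbᴴ * D * Wb with hD'
  have hone : prodOp (1 : Matrix α α ℂ) (1 : Matrix β β ℂ) = 1 := by
    rw [kron_eq]; exact Matrix.one_kronecker_one
  have hP : Siᴴ * prodOp A B * Si = 1 := by
    rw [hSi, prodOp_star, prodOp_mul, prodOp_mul, hZa, hZb, ← hone]
    congr 1
    · rw [← Matrix.mul_assoc, hstar Wa Za hZW, Matrix.one_mul, hZW]
    · rw [← Matrix.mul_assoc, hstar Wb Zb hZW', Matrix.one_mul, hZW']
  have hQ : Siᴴ * prodOp C D * Si = prodOp C' D' := by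
    rw [hSi, prodOp_star, prodOp_mul, prodOp_mul]
  set K := Siᴴ * H * Si with hKdef
  have hHh : H.IsHermitian := by
    have := h.1
    rw [Matrix.isHermitian_fromBlocks_iff] at this
    exact this.2.1
  have hK : K.IsHermitian := Matrix.isHermitian_conjTranspose_mul_mul Si hHh
  have hblock : (fromBlocks 1 K K (prodOp C' D')).PosSemidef := by
    have := h.conjTranspose_mul_mul_same (fromBlocks Si 0 0 Si)
    simp only [fromBlocks_conjTranspose, fromBlocks_multiply, conjTranspose_zero, Matrix.zero_mul,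
      Matrix.mul_zero, add_zero, zero_add, hP, hQ] at this
    exact this
  set M := (1 / 2 : ℂ) • (prodOp (1 : Matrix α α ℂ) D' + prodOp C' (1 : Matrix β β ℂ)) with hM
  set N := (1 / 2 : ℂ) • (prodOp (1 : Matrix α α ℂ) D' - prodOp C' (1 : Matrix β β ℂ)) with hN
  have hWau : IsUnit Wa := IsUnit.of_mul_eq_one _ hWZ
  have hWbu : IsUnit Wb := IsUnit.of_mul_eq_one _ hWZ'
  have hC'd : C'.PosDef := (Matrix.IsUnit.posDef_star_left_conjugate_iff hWau).2 hC
  have hD'd : D'.PosDef := (Matrix.IsUnit.posDef_star_left_conjugate_iff hWbu).2 hD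
  have hhalf : (0:ℂ) < 1 / 2 := by
    rw [show (1 / 2 : ℂ) = (((1 / 2 : ℝ)) : ℂ) by simp]
    exact_mod_cast (by norm_num : (0:ℝ) < 1 / 2)
  have hMd : M.PosDef :=
    (Matrix.PosDef.add_posSemidef (Matrix.PosDef.kronecker Matrix.PosDef.one hD'd)
      (prodOp_psd hC'd.posSemidef Matrix.PosSemidef.one)).smul hhalf
  have hNh : Nᴴ = N := by
    rw [hN, conjTranspose_smul, conjTranspose_sub, prodOp_star, prodOp_star, conjTranspose_one,
      conjTranspose_one, hC'd.1.eq, hD'd.1.eq]
    congr 1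
    simp
  have hsq : M * M = prodOp C' D' + Nᴴ * N := by
    rw [hNh, hM, hN]
    simp only [Matrix.smul_mul, Matrix.mul_smul, Matrix.add_mul, Matrix.mul_add, Matrix.sub_mul,
      Matrix.mul_sub, prodOp_mul, Matrix.one_mul, Matrix.mul_one, smul_smul]
    ext x y
    simp [prodOp]
    ring
  have hblock2 : (fromBlocks 1 K K (M * M)).PosSemidef := by
    have h0 : (fromBlocks (0 : Matrix (α × β) (α × β) ℂ) 0 0 (Nᴴ * N)).PosSemidef := by
      have := Matrix.posSemidef_conjTranspose_mul_self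
        (fromBlocks (0 : Matrix (α × β) (α × β) ℂ) 0 0 N)
      simpa [fromBlocks_conjTranspose, fromBlocks_multiply] using this
    have := hblock.add h0
    simp only [fromBlocks_add, add_zero, ← hsq] at this
    exact this
  have hres := (le_of_block hMd hK hblock2).conjTranspose_mul_mul_same S
  refine (congrArg Matrix.PosSemidef ?_).mp hres
  have hKS : Sᴴ * K * S = H := by
    have h1 : Si * S = 1 := by rw [hSi, hS, prodOp_mul, hWZ, hWZ', hone]
    have h2 : Sᴴ * Siᴴ = 1 := by rw [← conjTranspose_mul, h1, conjTranspose_one]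
    rw [hKdef, ← Matrix.mul_assoc, ← Matrix.mul_assoc, h2, Matrix.one_mul, Matrix.mul_assoc, h1,
      Matrix.mul_one]
  rw [Matrix.mul_sub, Matrix.sub_mul, hKS, hM, Matrix.mul_smul, Matrix.smul_mul, Matrix.mul_add,
    Matrix.add_mul, hS, prodOp_star, prodOp_mul, prodOp_mul, prodOp_mul, prodOp_mul]
  congr 2
  rw [Matrix.mul_one, Matrix.mul_one, ← hZa, ← hZb, hC', hD']
  congr 2
  · simp only [← Matrix.mul_assoc]
    rw [hstar Zb Wb hWZ', Matrix.one_mul, Matrix.mul_assoc, hWZ', Matrix.mul_one]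
  · simp only [← Matrix.mul_assoc]
    rw [hstar Za Wa hWZ, Matrix.one_mul, Matrix.mul_assoc, hWZ, Matrix.mul_one]

lemma trace_mul_re_mono {ι : Type} [Fintype ι] [DecidableEq ι] {τ M H : Matrix ι ι ℂ}
    (hτ : τ.PosSemidef) (h : (M - H).PosSemidef) : (τ * H).trace.re ≤ (τ * M).trace.re := by
  have := (Complex.nonneg_iff.1 (psd_trace_mul hτ h)).1
  rw [Matrix.mul_sub, trace_sub, Complex.sub_re] at this
  linarith

lemma avg_bound {A C : Matrix α α ℂ} {B D : Matrix β β ℂ} {H τ : Matrix (α × β) (α × β) ℂ}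
    (hτ : τ.PosSemidef)
    (hA : A.PosSemidef) (hB : B.PosSemidef) (hC : C.PosSemidef) (hD : D.PosSemidef)
    (h : (fromBlocks (prodOp A B) H H (prodOp C D)).PosSemidef) :
    2 * (τ * H).trace.re ≤ (τ * prodOp A D).trace.re + (τ * prodOp C B).trace.re := by
  set c0 := (τ * prodOp A D).trace.re + (τ * prodOp C B).trace.re with hc0
  set c1 := (τ * (prodOp (A + C) 1 + prodOp 1 (B + D))).trace.re with hc1
  set c2 := (τ * (prodOp (1 : Matrix α α ℂ) (1 : Matrix β β ℂ))).trace.re with hc2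
  have key : ∀ e : ℝ, 0 < e → 2 * (τ * H).trace.re ≤ c0 + e * c1 + 2 * e ^ 2 * c2 := by
    intro e he
    have heC : (0:ℂ) < (e:ℂ) := by exact_mod_cast he
    let A' := A + (e:ℂ) • (1 : Matrix α α ℂ)
    let C' := C + (e:ℂ) • (1 : Matrix α α ℂ)
    let B' := B + (e:ℂ) • (1 : Matrix β β ℂ)
    let D' := D + (e:ℂ) • (1 : Matrix β β ℂ)
    have hA' : A'.PosDef := Matrix.PosDef.posSemidef_add hA (Matrix.PosDef.one.smul heC)
    have hB' : B'.PosDef := Matrix.PosDef.posSemidef_add hB (Matrix.PosDef.one.smul heC)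
    have hC' : C'.PosDef := Matrix.PosDef.posSemidef_add hC (Matrix.PosDef.one.smul heC)
    have hD' : D'.PosDef := Matrix.PosDef.posSemidef_add hD (Matrix.PosDef.one.smul heC)
    have hgrow : ∀ (P : Matrix α α ℂ) (Q : Matrix β β ℂ), P.PosSemidef → Q.PosSemidef →
        (prodOp (P + (e:ℂ) • 1) (Q + (e:ℂ) • 1) - prodOp P Q).PosSemidef := by
      intro P Q hP hQ
      have e1 : prodOp (P + (e:ℂ) • 1) (Q + (e:ℂ) • 1) - prodOp P Q =
          prodOp ((e:ℂ) • 1) (Q + (e:ℂ) • 1) + prodOp P ((e:ℂ) • (1 : Matrix β β ℂ)) := by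
        ext x y; simp [prodOp]; ring
      rw [e1]
      exact (prodOp_psd (Matrix.PosSemidef.one.smul heC.le)
        (hQ.add (Matrix.PosSemidef.one.smul heC.le))).add
        (prodOp_psd hP (Matrix.PosSemidef.one.smul heC.le))
    have hblock : (fromBlocks (prodOp A' B') H H (prodOp C' D')).PosSemidef := by
      obtain ⟨X1, hX1⟩ := psd_factor (hgrow A B hA hB)
      obtain ⟨X2, hX2⟩ := psd_factor (hgrow C D hC hD)
      have h0 := h.add (Matrix.posSemidef_conjTranspose_mul_self (fromBlocks X1 0 0 X2))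
      rw [fromBlocks_conjTranspose, fromBlocks_multiply, fromBlocks_add] at h0
      simpa [A', B', C', D', ← hX1, ← hX2] using h0
    have hb := trace_mul_re_mono hτ (avg_bound_posDef hA' hB' hC' hD' hblock)
    have e2 : (1 / 2 : ℂ) • (prodOp A' D' + prodOp C' B') = ((1 / 2 : ℝ) : ℂ) • (prodOp A D +
        prodOp C B + (e:ℂ) • (prodOp (A + C) 1 + prodOp 1 (B + D)) +
          ((2 * e ^ 2 : ℝ) : ℂ) • prodOp (1 : Matrix α α ℂ) (1 : Matrix β β ℂ)) := by
      ext x y; simp [A', B', C', D', prodOp]; ring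
    rw [e2] at hb
    simp only [Matrix.mul_smul, Matrix.mul_add, trace_smul, trace_add, smul_eq_mul,
      Complex.add_re, Complex.re_ofReal_mul] at hb
    simp only [hc0, hc1, hc2, Matrix.mul_add, trace_add, Complex.add_re]
    linarith
  have hlim : Filter.Tendsto (fun e : ℝ => c0 + e * c1 + 2 * e ^ 2 * c2)
      (nhdsWithin 0 (Set.Ioi 0)) (nhds c0) := by
    have : ContinuousAt (fun e : ℝ => c0 + e * c1 + 2 * e ^ 2 * c2) 0 := by fun_prop
    have h2 := this.tendsto.mono_left (nhdsWithin_le_nhds (s := Set.Ioi (0:ℝ)))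
    simpa using h2
  exact ge_of_tendsto hlim (eventually_nhdsWithin_of_forall key)

/-- A root of a positive semidefinite matrix together with its pseudo-inverse. -/
lemma exists_root {E : Matrix ι ι ℂ} (hE : E.PosSemidef) :
    ∃ A Ai : Matrix ι ι ℂ, A.PosSemidef ∧ Aiᴴ = Ai ∧ A * A = E ∧ Ai * E = A ∧ E * Ai = A ∧
      (1 - Ai * E * Ai).PosSemidef := by
  set U : Matrix ι ι ℂ := (hE.1.eigenvectorUnitary : Matrix ι ι ℂ) with hU
  set l := hE.1.eigenvalues with hl
  have hUU : Uᴴ * U = 1 := by rw [hU, ← star_eq_conjTranspose]; simp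
  have hUU' : U * Uᴴ = 1 := mul_eq_one_comm.1 hUU
  have hspec : E = U * diagonal (fun i => ((l i : ℝ) : ℂ)) * Uᴴ := by
    have := hE.1.spectral_theorem
    simpa [Unitary.conjStarAlgAut_apply, star_eq_conjTranspose, hU, hl, Function.comp_def]
      using this
  let f : (ι → ℝ) → Matrix ι ι ℂ := fun g => U * diagonal (fun i => ((g i : ℝ) : ℂ)) * Uᴴ
  have hfm : ∀ g g', f g * f g' = f (fun i => g i * g' i) := by
    intro g g'
    calc f g * f g' = U * (diagonal (fun i => ((g i : ℝ) : ℂ)) * (Uᴴ * U) *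
          diagonal (fun i => ((g' i : ℝ) : ℂ))) * Uᴴ := by simp only [f, Matrix.mul_assoc]
      _ = _ := by rw [hUU, Matrix.mul_one, diagonal_mul_diagonal]; simp [f]
  have hfp : ∀ g, (∀ i, 0 ≤ g i) → (f g).PosSemidef := fun g hg =>
    (Matrix.posSemidef_diagonal_iff.2 fun i => by exact_mod_cast hg i).mul_mul_conjTranspose_same U
  have hf1 : f (fun _ => 1) = 1 := by simp [f, hUU']
  have hl0 : ∀ i, 0 ≤ l i := fun i => hE.eigenvalues_nonneg i
  have hEf : E = f l := hspec
  refine ⟨f (fun i => Real.sqrt (l i)), f (fun i => (Real.sqrt (l i))⁻¹),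
    hfp _ (fun i => Real.sqrt_nonneg _), (hfp _ (fun i => inv_nonneg.2 (Real.sqrt_nonneg _))).1.eq,
    ?_, ?_, ?_, ?_⟩
  · rw [hfm, hEf]; congr 1; funext i; exact Real.mul_self_sqrt (hl0 i)
  · rw [hEf, hfm]; congr 1; funext i
    rw [mul_comm, ← div_eq_mul_inv, Real.div_sqrt]
  · rw [hEf, hfm]; congr 1; funext i
    rw [← div_eq_mul_inv, Real.div_sqrt]
  · rw [hEf, hfm, hfm, ← hf1]
    have : ∀ g g', f g - f g' = f (fun i => g i - g' i) := by
      intro g g'
      simp only [f, ← Matrix.sub_mul, ← Matrix.mul_sub, diagonal_sub]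
      simp
    rw [this]
    refine hfp _ (fun i => ?_)
    rw [sub_nonneg, show (Real.sqrt (l i))⁻¹ * l i = Real.sqrt (l i) by
      rw [mul_comm, ← div_eq_mul_inv, Real.div_sqrt]]
    exact mul_inv_le_one

/-- Contractions move positive operators below themselves. -/
lemma contraction_psd {κ : Type} [Fintype κ] [DecidableEq κ] {P : Matrix ι ι ℂ}
    {G : Matrix κ ι ℂ} (hP : P.PosSemidef) (hG : (1 - G * P * Gᴴ).PosSemidef) :
    (P - P * Gᴴ * G * P).PosSemidef := by
  obtain ⟨Z, hZ⟩ := psd_factor hP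
  set C := G * Zᴴ with hC
  have hCC : (1 - C * Cᴴ).PosSemidef := by
    refine (congrArg Matrix.PosSemidef ?_).mp hG
    rw [hC, conjTranspose_mul, conjTranspose_conjTranspose, hZ]; simp only [Matrix.mul_assoc]
  have h2 : (1 - Cᴴ * C).PosSemidef := by
    have key : ((1 : Matrix ι ι ℂ) - Cᴴ * C) =
        (1 - Cᴴ * C)ᴴ * (1 - Cᴴ * C) + Cᴴ * (1 - C * Cᴴ) * C := by
      clear_value C
      rw [conjTranspose_sub, conjTranspose_one, (Matrix.isHermitian_conjTranspose_mul_self C).eq]
      simp only [Matrix.sub_mul, Matrix.mul_sub, Matrix.one_mul, Matrix.mul_one, Matrix.mul_assoc]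
      abel
    rw [key]
    exact (Matrix.posSemidef_conjTranspose_mul_self _).add (hCC.conjTranspose_mul_mul_same C)
  refine (congrArg Matrix.PosSemidef ?_).mp (h2.conjTranspose_mul_mul_same Z)
  rw [Matrix.mul_sub, Matrix.sub_mul, Matrix.mul_one, ← hZ, hC, conjTranspose_mul,
    conjTranspose_conjTranspose]
  congr 1
  rw [hZ]
  simp only [Matrix.mul_assoc]

/-- Distance of the squares of two positive operators bounds the distance of the operators. -/
lemma root_distance {A B : Matrix ι ι ℂ} (hA : A.PosSemidef) (hB : B.PosSemidef) :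
    ∃ M : ι → Matrix ι ι ℂ, (∀ w, (M w).PosSemidef) ∧ (∑ w, M w = 1) ∧
      (A * A).trace.re + (B * B).trace.re - 2 * (A * B).trace.re ≤
        ∑ w, |(M w * (A * A - B * B)).trace.re| := by
  have hH : (A - B).IsHermitian := hA.1.sub hB.1
  set U : Matrix ι ι ℂ := (hH.eigenvectorUnitary : Matrix ι ι ℂ) with hU
  set l := hH.eigenvalues with hl
  have hUU : Uᴴ * U = 1 := by rw [hU, ← star_eq_conjTranspose]; simp
  have hUU' : U * Uᴴ = 1 := mul_eq_one_comm.1 hUU
  have hspec : A - B = U * diagonal (fun i => ((l i : ℝ) : ℂ)) * Uᴴ := by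
    have := hH.spectral_theorem
    simpa [Unitary.conjStarAlgAut_apply, star_eq_conjTranspose, hU, hl, Function.comp_def]
      using this
  have hd : Uᴴ * (A - B) * U = diagonal (fun i => ((l i : ℝ) : ℂ)) := by
    rw [hspec]
    simp only [← Matrix.mul_assoc, hUU, Matrix.one_mul]
    rw [Matrix.mul_assoc, hUU, Matrix.mul_one]
  refine ⟨fun w => U * diagonal (Pi.single w (1:ℂ)) * Uᴴ, fun w => ?_, ?_, ?_⟩
  · refine (Matrix.posSemidef_diagonal_iff.2 fun i => ?_).mul_mul_conjTranspose_same U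
    by_cases h : i = w
    · subst h; simp
    · simp [h]
  · rw [← Matrix.sum_mul, ← Matrix.mul_sum]
    have : ∑ w : ι, diagonal (Pi.single w (1:ℂ)) = 1 := by
      ext i j
      by_cases h : i = j
      · subst h; simp [Matrix.sum_apply, Pi.single_apply]
      · simp [Matrix.sum_apply, h]
    rw [this, Matrix.mul_one, hUU']
  set A' := Uᴴ * A * U with hA'
  set B' := Uᴴ * B * U with hB'
  have hA'p : A'.PosSemidef := hA.conjTranspose_mul_mul_same U
  have hB'p : B'.PosSemidef := hB.conjTranspose_mul_mul_same U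
  have hdiff : A' - B' = diagonal (fun i => ((l i : ℝ) : ℂ)) := by
    rw [← hd, hA', hB', Matrix.mul_sub, Matrix.sub_mul]
  have hconj : ∀ X Y : Matrix ι ι ℂ, (Uᴴ * X * U) * (Uᴴ * Y * U) = Uᴴ * (X * Y) * U := by
    intro X Y
    calc _ = Uᴴ * X * (U * Uᴴ) * Y * U := by simp only [Matrix.mul_assoc]
      _ = _ := by rw [hUU', Matrix.mul_one]; simp only [Matrix.mul_assoc]
  have htr : ∀ X : Matrix ι ι ℂ, (Uᴴ * X * U).trace = X.trace := by
    intro X
    rw [Matrix.trace_mul_comm, ← Matrix.mul_assoc, hUU', Matrix.one_mul]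
  have hw : ∀ w X, (U * diagonal (Pi.single w (1:ℂ)) * Uᴴ * X).trace = (Uᴴ * X * U) w w := by
    intro w X
    rw [Matrix.mul_assoc, Matrix.mul_assoc U, Matrix.trace_mul_comm, Matrix.mul_assoc]
    simp [Matrix.trace, diagonal_mul, Pi.single_apply]
  have hL : (A * A).trace.re + (B * B).trace.re - 2 * (A * B).trace.re = ∑ i, l i * l i := by
    have h1 : ((A - B) * (A - B)).trace.re = ∑ i, l i * l i := by
      rw [← htr, ← hconj, hd, diagonal_mul_diagonal, trace_diagonal, Complex.re_sum]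
      simp
    rw [← h1, Matrix.sub_mul, Matrix.mul_sub, Matrix.mul_sub, trace_sub, trace_sub, trace_sub,
      trace_mul_comm B A]
    simp only [Complex.sub_re]
    ring
  rw [hL]
  refine sum_le_sum fun w _ => ?_
  rw [hw]
  have e : Uᴴ * (A * A - B * B) * U =
      (1 / 2 : ℂ) • ((A' - B') * (A' + B') + (A' + B') * (A' - B')) := by
    rw [Matrix.mul_sub, Matrix.sub_mul, ← hconj, ← hconj, ← hA', ← hB']
    simp only [Matrix.sub_mul, Matrix.mul_sub, Matrix.add_mul, Matrix.mul_add]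
    ext i j
    simp
    ring
  rw [e, hdiff]
  simp only [Matrix.smul_apply, Matrix.add_apply, diagonal_mul, mul_diagonal, smul_eq_mul]
  have hSa := (Complex.nonneg_iff.1 (hA'p.diag_nonneg (i := w))).1
  have hSb := (Complex.nonneg_iff.1 (hB'p.diag_nonneg (i := w))).1
  have hlw : l w = (A' w w).re - (B' w w).re := by
    have := congrArg Complex.re (congrFun (congrFun hdiff w) w)
    simpa using this.symm
  have hval : ((1 / 2 : ℂ) * ((l w : ℂ) * (A' w w + B' w w) + (A' w w + B' w w) * (l w : ℂ))).re =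
      l w * ((A' w w).re + (B' w w).re) := by
    rw [show (1 / 2 : ℂ) * ((l w : ℂ) * (A' w w + B' w w) + (A' w w + B' w w) * (l w : ℂ)) =
      (l w : ℂ) * (A' w w + B' w w) by ring, Complex.re_ofReal_mul, Complex.add_re]
  rw [hval, abs_mul, abs_of_nonneg (add_nonneg hSa hSb), ← abs_mul_abs_self (l w)]
  refine mul_le_mul_of_nonneg_left ?_ (abs_nonneg _)
  rw [hlw, abs_le]
  constructor <;> linarith

end Bound

end Vale.Agent.P372.Link
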