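import Vale.Agent.P372.Base

/-!
Key distillation protocols with local operations and public communication, the final state of
the key registers and of the eavesdropper, and the distillable key.
-/

open Matrix Finset
open scoped ComplexOrder Kronecker ENNReal

namespace Vale.Agent.P372.Lopc

open Vale.Agent.Results.P372.IndividualMeasurements

/-- Keys of `ℓ` bits. -/
abbrev Key (ℓ : ℕ) : Type := Fin ℓ → Bool

/-- A protocol for Alice holding `ℂ^a` and Bob `ℂ^b`: a finite tree of local instruments whose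
outcome `i` is announced publicly (the operators `K i j` with the same `i` are not
distinguished publicly), all later steps depending on what was announced. At the end each party
measures the key with an arbitrary POVM. -/
inductive Prot (ℓ : ℕ) : ℕ → ℕ → Type
  | done {a b : ℕ} (A : Key ℓ → Matrix (Fin a) (Fin a) ℂ) (B : Key ℓ → Matrix (Fin b) (Fin b) ℂ)
      (hA : (∀ z, (A z).PosSemidef) ∧ ∑ z, A z = 1)
      (hB : (∀ z, (B z).PosSemidef) ∧ ∑ z, B z = 1) : Prot ℓ a b
  | alice {a b : ℕ} (n : ℕ) (d r : Fin n → ℕ)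
      (K : (i : Fin n) → Fin (r i) → Matrix (Fin (d i)) (Fin a) ℂ)
      (hK : ∑ i, ∑ j, (K i j)ᴴ * K i j = 1)
      (next : (i : Fin n) → Prot ℓ (d i) b) : Prot ℓ a b
  | bob {a b : ℕ} (n : ℕ) (d r : Fin n → ℕ)
      (K : (i : Fin n) → Fin (r i) → Matrix (Fin (d i)) (Fin b) ℂ)
      (hK : ∑ i, ∑ j, (K i j)ᴴ * K i j = 1)
      (next : (i : Fin n) → Prot ℓ a (d i)) : Prot ℓ a b

/-- The complete public transcripts of a protocol. -/
def Transcript {ℓ : ℕ} : {a b : ℕ} → Prot ℓ a b → Type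
  | _, _, .done .. => Unit
  | _, _, .alice n _ _ _ _ next => Σ i : Fin n, Transcript (next i)
  | _, _, .bob n _ _ _ _ next => Σ i : Fin n, Transcript (next i)

instance instFintypeTranscript {ℓ : ℕ} : {a b : ℕ} → (P : Prot ℓ a b) → Fintype (Transcript P)
  | _, _, .done .. => inferInstanceAs (Fintype Unit)
  | _, _, .alice n _ _ _ _ next =>
      have := fun i : Fin n => instFintypeTranscript (next i)
      inferInstanceAs (Fintype (Σ i : Fin n, Transcript (next i)))
  | _, _, .bob n _ _ _ _ next =>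
      have := fun i : Fin n => instFintypeTranscript (next i)
      inferInstanceAs (Fintype (Σ i : Fin n, Transcript (next i)))

instance instDecEqTranscript {ℓ : ℕ} : {a b : ℕ} → (P : Prot ℓ a b) → DecidableEq (Transcript P)
  | _, _, .done .. => inferInstanceAs (DecidableEq Unit)
  | _, _, .alice n _ _ _ _ next =>
      have := fun i : Fin n => instDecEqTranscript (next i)
      inferInstanceAs (DecidableEq (Σ i : Fin n, Transcript (next i)))
  | _, _, .bob n _ _ _ _ next =>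
      have := fun i : Fin n => instDecEqTranscript (next i)
      inferInstanceAs (DecidableEq (Σ i : Fin n, Transcript (next i)))

variable {ℓ : ℕ} {ε : Type} [Fintype ε] [DecidableEq ε]

/-- Trace over the systems of Alice and Bob. -/
def ptr {ι : Type} [Fintype ι] (M : Matrix (ι × ε) (ι × ε) ℂ) : Matrix ε ε ℂ :=
  fun e e' => ∑ x, M (x, e) (x, e')

/-- The unnormalised state of the eavesdropper's quantum system for every transcript and
pair of keys, when the protocol runs on the state `ω` of Alice, Bob and the eavesdropper. -/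
noncomputable def run : {a b : ℕ} → (P : Prot ℓ a b) →
    Matrix ((Fin a × Fin b) × ε) ((Fin a × Fin b) × ε) ℂ →
    Transcript P → Key ℓ → Key ℓ → Matrix ε ε ℂ
  | _, _, .done A B _ _, ω, _, z, z' => ptr (((A z ⊗ₖ B z') ⊗ₖ (1 : Matrix ε ε ℂ)) * ω)
  | _, b, .alice n _ _ K _ next, ω, t, z, z' =>
      let t' : Σ i : Fin n, Transcript (next i) := t
      run (next t'.1) (∑ j, ((K t'.1 j ⊗ₖ (1 : Matrix (Fin b) (Fin b) ℂ)) ⊗ₖ (1 : Matrix ε ε ℂ)) * ω *
        ((K t'.1 j ⊗ₖ (1 : Matrix (Fin b) (Fin b) ℂ)) ⊗ₖ (1 : Matrix ε ε ℂ))ᴴ) t'.2 z z'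
  | a, _, .bob n _ _ K _ next, ω, t, z, z' =>
      let t' : Σ i : Fin n, Transcript (next i) := t
      run (next t'.1) (∑ j, (((1 : Matrix (Fin a) (Fin a) ℂ) ⊗ₖ K t'.1 j) ⊗ₖ (1 : Matrix ε ε ℂ)) * ω *
        (((1 : Matrix (Fin a) (Fin a) ℂ) ⊗ₖ K t'.1 j) ⊗ₖ (1 : Matrix ε ε ℂ))ᴴ) t'.2 z z'

/-- The final state of the two key registers, the transcript and the eavesdropper's system. -/
noncomputable def finalState {a b : ℕ} (P : Prot ℓ a b)
    (ω : Matrix ((Fin a × Fin b) × ε) ((Fin a × Fin b) × ε) ℂ) :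
    Matrix ((Key ℓ × Key ℓ) × (Transcript P × ε)) ((Key ℓ × Key ℓ) × (Transcript P × ε)) ℂ :=
  fun x y => if x.1 = y.1 ∧ x.2.1 = y.2.1 then run P ω x.2.1 x.1.1 x.1.2 x.2.2 y.2.2 else 0

/-- An ideal key, `2^-ℓ ∑ z, |z,z⟩⟨z,z| ⊗ σ`. -/
noncomputable def idealKey {η : Type} (ℓ : ℕ) (σ : Matrix η η ℂ) :
    Matrix ((Key ℓ × Key ℓ) × η) ((Key ℓ × Key ℓ) × η) ℂ :=
  fun x y => if x.1 = y.1 ∧ x.1.1 = x.1.2 then ((2 : ℂ) ^ ℓ)⁻¹ * σ x.2 y.2 else 0

/-- The state of Alice, Bob and the eavesdropper given by the amplitudes `R`. -/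
def pureState {ι η : Type} (R : Matrix ι η ℂ) : Matrix (ι × η) (ι × η) ℂ :=
  fun x y => R x.1 x.2 * star (R y.1 y.2)

/-- The tensor power of the amplitudes of a purification. -/
def nCopies {dA dB : ℕ} {η : Type} (R : Matrix (Fin dA × Fin dB) η ℂ) (n : ℕ) :
    Matrix (Fin (dA ^ n) × Fin (dB ^ n)) (Fin n → η) ℂ :=
  fun x e => ∏ k, R (finFunctionFinEquiv.symm x.1 k, finFunctionFinEquiv.symm x.2 k) (e k)

/-- The protocol on `n` copies has error at most `δ` against the holder of the purification. -/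
def HasError {dA dB n : ℕ} (R : Matrix (Fin dA × Fin dB) ε ℂ)
    (P : Prot ℓ (dA ^ n) (dB ^ n)) (δ : ℝ) : Prop :=
  ∃ σ : Matrix (Transcript P × (Fin n → ε)) (Transcript P × (Fin n → ε)) ℂ,
    IsState σ ∧ traceNorm (finalState P (pureState (nCopies R n)) - idealKey ℓ σ) ≤ δ

/-- The distillable key of the state purified by `R`: the supremum of `liminf ℓ n / n` over
sequences of protocols on `n` copies whose errors tend to zero. -/
noncomputable def KD {dA dB : ℕ} (R : Matrix (Fin dA × Fin dB) ε ℂ) : ℝ≥0∞ :=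
  ⨆ (ℓ : ℕ → ℕ) (_ : ∃ (P : (n : ℕ) → Prot (ℓ n) (dA ^ n) (dB ^ n)) (δ : ℕ → ℝ),
      Filter.Tendsto δ Filter.atTop (nhds 0) ∧ ∀ n, HasError R (P n) (δ n)),
    Filter.liminf (fun n => (ℓ n : ℝ≥0∞) / (n : ℝ≥0∞)) Filter.atTop

end Vale.Agent.P372.Lopc
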